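import Vale.Agent.P297.H572.Tab

/-! Three linear relations. -/

namespace Vale.Agent.P297.H572

def fXO10 : List ℤ := [2, 6, -6, -34, -18, 16, -40, -46, 78, 22, -86, 68, 70, -80, 32, 40, -40,
  16]
def fXO11 : List ℤ := [-2, -8, 4, 56, 52, -78, -88, 78, 20, -72, 112, 14, -146, 122, 32, -176, 72,
  40, -64, 32]
def fXO20 : List ℤ := [0, 2, 10, 6, -32, -36, 2, -78, -118, 58, 8, -116, 122, 100, -72, 88, 56,
  -32, 32]
def fXO21 : List ℤ := [0, 2, 8, 0, -34, -20, 70, 76, 12, 52, 18, -88, 2, 2, -108, 8, 24, -40, 16]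
def fYO10 : List ℤ := [0, -2, -4, 14, 40, 20, 20, 78, 8, -74, 28, -16, -108, 12, 8, -40, 16]
def fYO11 : List ℤ := [0, 2, 6, -6, -38, -36, -8, -34, -26, 58, 46, 28, 76, -4, -48, 16, -16, -16]
def fYO20 : List ℤ := [0, -2, -8, -6, 12, 8, -24, -6, 20, -38, -36, 48, 12, -20, 32, 8]
def fYO21 : List ℤ := [0, -2, -10, -10, 22, 36, -20, -22, 54, 14, -30, 28, -48, -76, 56, 8, -32,
  32]
def fUR10 : List ℤ := [-1, -4, -1, 14, 16, 2, 19, 30, -17, -26, 10, -12, -38, -8, 16, -8, -8, 16]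
def fUR11 : List ℤ := [1, 7, 13, -19, -104, -136, -57, -39, -99, -21, 52, -6, 82, 142, -8, 32,
  120, 8, 0, 32]
def fUR20 : List ℤ := [1, 7, 13, -17, -90, -112, -101, -235, -317, -125, -160, -376, -114, 14,
  -256, -92, 48, -120, -32, 16, -32]
def fUR21 : List ℤ := [-1, -6, -6, 34, 91, 10, -217, -314, -348, -632, -767, -556, -646, -708,
  -310, -340, -500, -112, -88, -272, -48, 0, -64]
def fVR10 : List ℤ := [0, 0, 0, -4, -20, -32, -18, -26, -54, 2, 40, -24, 20, 76, 0, 8, 32]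
def fVR11 : List ℤ := [0, -2, -14, -32, -8, 72, 88, 6, -2, 24, -56, -48, 12, -80, -48, 72, 0, -16,
  32]
def fVR20 : List ℤ := [0, -2, -14, -32, -12, 44, 26, -6, 126, 152, -50, 48, 212, -40, -52, 144, 0,
  -32, 48]
def gXO10 : List ℤ := [-2, -6, -2, 2, -10, 0, 20, -10, -6, 26, -14, -8, 18, -12, 4]
def gXO11 : List ℤ := [2, 8, 4, -16, -8, 18, -4, -2, 28, -24, -20, 34, -26, -6, 24, -20, 8]
def gXO20 : List ℤ := [0, -2, -6, -2, 0, -16, -6, 14, -18, -6, 32, -12, 2, 24, -12, 8]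
def gXO21 : List ℤ := [0, -2, -4, 8, 22, 8, 2, 8, -20, -16, 10, -16, -6, 14, -12, 4]
def gYO10 : List ℤ := [0, 2, 8, 10, 4, 8, 12, -10, -12, 6, -12, -16, 8, -8]
def gYO11 : List ℤ := [0, -2, -10, -14, 2, 12, 4, 14, 10, -10, 6, 4, -16, 4, -4]
def gYO20 : List ℤ := [0, -2, -4, 2, 0, -12, 4, 10, -16, 6, 16, -12, 8]
def gYO21 : List ℤ := [0, -2, -6, 2, 18, 4, -12, 6, -6, -18, 18, -4, -16, 20, -4]
def gUR10 : List ℤ := [1, 4, 3, -4, 0, 6, -11, -10, 13, -4, -12, 12, 2, -4, 4]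
def gUR11 : List ℤ := [-1, -7, -19, -25, -18, -12, -7, 7, 11, 7, 20, 20, 2, 10, 8, -4, 8]
def gUR20 : List ℤ := [-1, -7, -19, -27, -32, -48, -51, -33, -43, -45, -12, -26, -30, 6, -16, -16,
  8, -8]
def gUR21 : List ℤ := [1, 6, 8, -20, -69, -76, -75, -134, -132, -78, -131, -106, -12, -88, -70,
  16, -48, -24, 8, -16]
def gVR10 : List ℤ := [0, -2, -8, -8, 0, -8, -12, 14, 8, -12, 16, 12, -8, 8]
def gVR11 : List ℤ := [0, 0, 0, 0, 0, 0, -2, -8, -8, 0, -2, 0, 8, 0, 4, 8]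
def gVR21 : List ℤ := [0, -2, -12, -22, 0, 36, 22, 16, 64, 38, 6, 66, 20, -24, 52, 12, -16, 24]
def hXR10 : List ℤ := [-1, -3, 3, 9, -11, 7, 47, -47, -20, 104, -114, -42, 152, -148, 8, 104, -96,
  48]
def hXR11 : List ℤ := [0, 2, 14, 26, -14, -58, 22, -14, -222, 24, 204, -268, -20, 384, -192, -96,
  272, -64, -64, 64]
def hXR12 : List ℤ := [2, 12, 16, -32, -84, -20, -4, -116, 54, 184, -132, 44, 236, -256, 56, 232,
  -304, 112, 96, -160, 128, -64]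
def hXR13 : List ℤ := [0, -2, -18, -56, -36, 180, 412, 196, -244, -174, 82, -60, -72, 12, -236,
  -80, 288, -16, -240, 0, 64]
def hXR14 : List ℤ := [-1, -9, -27, -11, 102, 186, 24, -140, -5, 7, -91, 173, 32, -372, 150, 242,
  -336, 92, 120, -312, 192, 112, -192, 64]
def hXR20 : List ℤ := [1, 8, 22, 22, 14, 54, 50, -66, 19, 114, -192, -52, 254, -256, -88, 304,
  -240, -32, 160, -128, 32]
def hXR21 : List ℤ := [0, 2, 12, 16, -32, -88, -56, -136, -368, -222, -68, -504, -368, 148, -336,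
  -400, 192, -96, -256, 64, 0, -64]
def hXR22 : List ℤ := [-2, -18, -56, -48, 84, 148, 4, 76, 202, -286, -340, 220, -348, -484, 440,
  -312, -576, 544, -208, -480, 416, -192, -192, 256, -128]
def hXR23 : List ℤ := [0, -2, -16, -42, -12, 144, 320, 440, 568, 446, 272, 774, 820, -28, 400,
  780, -160, 368, 656, -448, 96, 512, -192, -64, 128]
def hXR24 : List ℤ := [1, 10, 34, 16, -183, -438, -124, 800, 1045, 294, 42, 160, -121, 574, 1048,
  -592, -614, 1064, 120, -448, 576, -416, -512, 768, 32, -384, 128]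
def hYR10 : List ℤ := [-1, -3, 3, 9, -11, 7, 47, -47, -20, 104, -114, -42, 152, -148, 8, 104, -96,
  48]
def hYR11 : List ℤ := [0, -2, -14, -26, 14, 58, -22, 14, 222, -24, -204, 268, 20, -384, 192, 96,
  -272, 64, 64, -64]
def hYR12 : List ℤ := [2, 12, 16, -32, -84, -20, -4, -116, 54, 184, -132, 44, 236, -256, 56, 232,
  -304, 112, 96, -160, 128, -64]
def hYR13 : List ℤ := [0, 2, 18, 56, 36, -180, -412, -196, 244, 174, -82, 60, 72, -12, 236, 80,
  -288, 16, 240, 0, -64]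
def hYR14 : List ℤ := [-1, -9, -27, -11, 102, 186, 24, -140, -5, 7, -91, 173, 32, -372, 150, 242,
  -336, 92, 120, -312, 192, 112, -192, 64]
def hYR20 : List ℤ := [-1, -8, -22, -22, -14, -54, -50, 66, -19, -114, 192, 52, -254, 256, 88,
  -304, 240, 32, -160, 128, -32]
def hYR21 : List ℤ := [0, 2, 12, 16, -32, -88, -56, -136, -368, -222, -68, -504, -368, 148, -336,
  -400, 192, -96, -256, 64, 0, -64]
def hYR22 : List ℤ := [2, 18, 56, 48, -84, -148, -4, -76, -202, 286, 340, -220, 348, 484, -440,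
  312, 576, -544, 208, 480, -416, 192, 192, -256, 128]
def hYR23 : List ℤ := [0, -2, -16, -42, -12, 144, 320, 440, 568, 446, 272, 774, 820, -28, 400,
  780, -160, 368, 656, -448, 96, 512, -192, -64, 128]
def hYR24 : List ℤ := [-1, -10, -34, -16, 183, 438, 124, -800, -1045, -294, -42, -160, 121, -574,
  -1048, 592, 614, -1064, -120, 448, -576, 416, 512, -768, -32, 384, -128]
def hUO10 : List ℤ := [2, 6, -2, -6, 20, -16, -44, 60, -22, -74, 118, -30, -64, 100, -40, -24, 32,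
  -16]
def hUO11 : List ℤ := [0, 0, -4, -12, 0, 0, -48, 24, 80, -96, 44, 164, -176, 0, 136, -144, 0, 64,
  -32]
def hUO12 : List ℤ := [-4, -20, -12, 72, 72, -84, 32, 128, -292, -28, 356, -376, 32, 420, -536,
  112, 320, -352, 160, 64, -128, 64]
def hUO13 : List ℤ := [0, 0, 4, 20, 12, -68, -32, 200, 0, -440, 52, 372, -196, 188, 232, -592, 88,
  384, -256, 0, 96, -64]
def hUO14 : List ℤ := [2, 14, 22, -58, -198, -30, 430, 302, -306, -274, -198, -246, 686, 598,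
  -790, -246, 328, -324, 344, 312, -512, 16, 192, -64]
def hUO20 : List ℤ := [0, 0, 2, 2, -8, 8, 16, -48, 28, 52, -130, 86, 60, -172, 144, -8, -80, 80,
  -32]
def hUO21 : List ℤ := [0, 4, 16, 4, -24, 48, 40, -144, 88, 156, -360, 124, 272, -496, 208, 240,
  -368, 192, 64, -128, 64]
def hUO22 : List ℤ := [0, 4, 16, -8, -88, -28, 104, -104, -32, 380, -192, -216, 488, -404, -152,
  552, -432, 48, 224, -224, 64]
def hUO23 : List ℤ := [0, -4, -24, -40, 16, 60, -96, -144, 192, 148, -232, 216, 336, -524, -48,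
  416, -480, 128, 464, -448, -64, 192, -64]
def hUO24 : List ℤ := [0, -4, -26, -38, 92, 296, 78, -446, -332, 80, 82, 470, 388, -776, -374,
  534, -132, 132, 336, -520, -16, 272, -96]
def hVO10 : List ℤ := [0, 0, 2, 2, -8, 8, 16, -48, 28, 52, -130, 86, 60, -172, 144, -8, -80, 80,
  -32]
def hVO11 : List ℤ := [0, -4, -16, -4, 24, -48, -40, 144, -88, -156, 360, -124, -272, 496, -208,
  -240, 368, -192, -64, 128, -64]
def hVO12 : List ℤ := [0, 4, 16, -8, -88, -28, 104, -104, -32, 380, -192, -216, 488, -404, -152,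
  552, -432, 48, 224, -224, 64]
def hVO13 : List ℤ := [0, 4, 24, 40, -16, -60, 96, 144, -192, -148, 232, -216, -336, 524, 48,
  -416, 480, -128, -464, 448, 64, -192, 64]
def hVO14 : List ℤ := [0, -4, -26, -38, 92, 296, 78, -446, -332, 80, 82, 470, 388, -776, -374,
  534, -132, 132, 336, -520, -16, 272, -96]
def hVO20 : List ℤ := [-2, -6, 2, 6, -20, 16, 44, -60, 22, 74, -118, 30, 64, -100, 40, 24, -32,
  16]
def hVO21 : List ℤ := [0, 0, -4, -12, 0, 0, -48, 24, 80, -96, 44, 164, -176, 0, 136, -144, 0, 64,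
  -32]
def hVO22 : List ℤ := [4, 20, 12, -72, -72, 84, -32, -128, 292, 28, -356, 376, -32, -420, 536,
  -112, -320, 352, -160, -64, 128, -64]
def hVO23 : List ℤ := [0, 0, 4, 20, 12, -68, -32, 200, 0, -440, 52, 372, -196, 188, 232, -592, 88,
  384, -256, 0, 96, -64]
def hVO24 : List ℤ := [-2, -14, -22, 58, 198, 30, -430, -302, 306, 274, 198, 246, -686, -598, 790,
  246, -328, 324, -344, -312, 512, -16, -192, 64]

/-- the coefficients of three linear relations -/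
def rowsP : List E1 := [
/- fX -/ .add (.mul (.add (.mul (.hor fXO10 (.v 0)) (.r 15)) (.mul (.hor fXO11 (.v 0)) (.r 16)))
    (.r 2)) (.mul (.add (.mul (.hor fXO20 (.v 0)) (.r 15)) (.mul (.hor fXO21 (.v 0)) (.r 16))) (.r
    1)),
/- fY -/ .add (.mul (.add (.mul (.hor fYO10 (.v 0)) (.r 16)) (.mul (.hor fYO11 (.v 0)) (.r 17)))
    (.r 3)) (.mul (.add (.mul (.hor fYO20 (.v 0)) (.r 16)) (.mul (.hor fYO21 (.v 0)) (.r 17))) (.r
    2)),
/- fU -/ .add (.mul (.add (.mul (.hor fUR10 (.v 0)) (.r 17)) (.mul (.hor fUR11 (.v 0)) (.r 18)))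
    (.r 6)) (.mul (.add (.mul (.hor fUR20 (.v 0)) (.r 17)) (.mul (.hor fUR21 (.v 0)) (.r 18))) (.r
    5)),
/- fV -/ .add (.mul (.add (.mul (.hor fVR10 (.v 0)) (.r 18)) (.mul (.hor fVR11 (.v 0)) (.r 19)))
    (.r 7)) (.mul (.mul (.hor fVR20 (.v 0)) (.r 18)) (.r 6)),
/- gX -/ .add (.mul (.add (.mul (.hor gXO10 (.v 0)) (.r 19)) (.mul (.hor gXO11 (.v 0)) (.r 20)))
    (.r 6)) (.mul (.add (.mul (.hor gXO20 (.v 0)) (.r 19)) (.mul (.hor gXO21 (.v 0)) (.r 20))) (.r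
    5)),
/- gY -/ .add (.mul (.add (.mul (.hor gYO10 (.v 0)) (.r 20)) (.mul (.hor gYO11 (.v 0)) (.r 21)))
    (.r 7)) (.mul (.add (.mul (.hor gYO20 (.v 0)) (.r 20)) (.mul (.hor gYO21 (.v 0)) (.r 21))) (.r
    6)),
/- gU -/ .add (.mul (.add (.mul (.hor gUR10 (.v 0)) (.r 21)) (.mul (.hor gUR11 (.v 0)) (.r 22)))
    (.r 10)) (.mul (.add (.mul (.hor gUR20 (.v 0)) (.r 21)) (.mul (.hor gUR21 (.v 0)) (.r 22)))
    (.r 9)),
/- gV -/ .add (.mul (.add (.mul (.hor gVR10 (.v 0)) (.r 22)) (.mul (.hor gVR11 (.v 0)) (.r 23)))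
    (.r 11)) (.mul (.mul (.hor gVR21 (.v 0)) (.r 23)) (.r 10)),
/- N4 -/ .pow (.r 23) 4,
/- MN3 -/ .mul (.r 25) (.pow (.r 24) 3),
/- M2N2 -/ .mul (.pow (.r 26) 2) (.pow (.r 25) 2),
/- M3N -/ .mul (.pow (.r 27) 3) (.r 26),
/- M4 -/ .pow (.r 28) 4,
/- hX -/ .add (.mul (.add (.add (.add (.add (.mul (.hor hXR10 (.v 0)) (.r 4)) (.mul (.hor hXR11
    (.v 0)) (.r 3))) (.mul (.hor hXR12 (.v 0)) (.r 2))) (.mul (.hor hXR13 (.v 0)) (.r 1))) (.mul
    (.hor hXR14 (.v 0)) (.r 0))) (.r 17)) (.mul (.add (.add (.add (.add (.mul (.hor hXR20 (.v 0))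
    (.r 4)) (.mul (.hor hXR21 (.v 0)) (.r 3))) (.mul (.hor hXR22 (.v 0)) (.r 2))) (.mul (.hor
    hXR23 (.v 0)) (.r 1))) (.mul (.hor hXR24 (.v 0)) (.r 0))) (.r 16)),
/- hY -/ .add (.mul (.add (.add (.add (.add (.mul (.hor hYR10 (.v 0)) (.r 5)) (.mul (.hor hYR11
    (.v 0)) (.r 4))) (.mul (.hor hYR12 (.v 0)) (.r 3))) (.mul (.hor hYR13 (.v 0)) (.r 2))) (.mul
    (.hor hYR14 (.v 0)) (.r 1))) (.r 18)) (.mul (.add (.add (.add (.add (.mul (.hor hYR20 (.v 0))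
    (.r 5)) (.mul (.hor hYR21 (.v 0)) (.r 4))) (.mul (.hor hYR22 (.v 0)) (.r 3))) (.mul (.hor
    hYR23 (.v 0)) (.r 2))) (.mul (.hor hYR24 (.v 0)) (.r 1))) (.r 17)),
/- hU -/ .add (.mul (.add (.add (.add (.add (.mul (.hor hUO10 (.v 0)) (.r 6)) (.mul (.hor hUO11
    (.v 0)) (.r 5))) (.mul (.hor hUO12 (.v 0)) (.r 4))) (.mul (.hor hUO13 (.v 0)) (.r 3))) (.mul
    (.hor hUO14 (.v 0)) (.r 2))) (.r 17)) (.mul (.add (.add (.add (.add (.mul (.hor hUO20 (.v 0))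
    (.r 6)) (.mul (.hor hUO21 (.v 0)) (.r 5))) (.mul (.hor hUO22 (.v 0)) (.r 4))) (.mul (.hor
    hUO23 (.v 0)) (.r 3))) (.mul (.hor hUO24 (.v 0)) (.r 2))) (.r 16)),
/- hV -/ .add (.mul (.add (.add (.add (.add (.mul (.hor hVO10 (.v 0)) (.r 7)) (.mul (.hor hVO11
    (.v 0)) (.r 6))) (.mul (.hor hVO12 (.v 0)) (.r 5))) (.mul (.hor hVO13 (.v 0)) (.r 4))) (.mul
    (.hor hVO14 (.v 0)) (.r 3))) (.r 18)) (.mul (.add (.add (.add (.add (.mul (.hor hVO20 (.v 0))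
    (.r 7)) (.mul (.hor hVO21 (.v 0)) (.r 6))) (.mul (.hor hVO22 (.v 0)) (.r 5))) (.mul (.hor
    hVO23 (.v 0)) (.r 4))) (.mul (.hor hVO24 (.v 0)) (.r 3))) (.r 17))]

/-- first relation -/
def f1P : List E1 := [
/- fin -/ .add (.add (.add (.mul (.r 39) (.r 16)) (.mul (.r 38) (.r 15))) (.mul (.r 37) (.r 14)))
    (.mul (.r 36) (.r 13))]

/-- second relation -/
def f2P : List E1 := [
/- fin -/ .add (.add (.add (.mul (.r 39) (.r 12)) (.mul (.r 38) (.r 11))) (.mul (.r 37) (.r 10)))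
    (.mul (.r 36) (.r 9))]

/-- third relation -/
def f3P : List E1 := [
/- fin -/ .add (.add (.add (.mul (.r 39) (.r 3)) (.mul (.r 38) (.r 2))) (.mul (.r 37) (.r 1)))
    (.mul (.r 36) (.r 0))]

theorem chk1 : check1 (base ++ (rowsP ++ f1P)) [29, 972, 4856, 22276] = true := by decide +kernel

theorem chk2 : check1 (base ++ (rowsP ++ f2P)) [26, 793, 3961, 18165] = true := by decide +kernel

theorem chk3 : check1 (base ++ (rowsP ++ f3P)) [45, 2229, 17824, 138129] = true := by decide +kernel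

end Vale.Agent.P297.H572
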