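import Vale.Agent.P297.H572.IdQC
import Vale.Agent.P297.H572.IdL

/-! The relations satisfied by the forms at a point of the quintic surface. -/

set_option linter.unusedSimpArgs false

namespace Vale.Agent.P297.H572

open Vale.Agent.P297.H160 (Bo)

section

variable {M : Type*} (o : Bo M)

theorem nth_run (es : List E1) : ∀ (st : List M) (n : ℕ),
    nth o (run o st es) (es.length + n) = nth o st n := by
  induction es with
  | nil => intro st n; rw [List.length_nil, Nat.zero_add]; rfl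
  | cons e es ih =>
    intro st n
    rw [run_cons, List.length_cons, Nat.add_assoc, Nat.add_comm 1 n, ih]
    rfl

end

variable {K : Type*} [CommRing K]

/-- The head of a program that ends with `a - b c`. -/
theorem run_last (l : List K) (st : List K) (es : List E1) (i j : ℕ) (l' : List K)
    (h : run (rg l) st (es ++ [.sub (.r (es.length + i)) (.mul (.r 0) (.r (es.length + j)))]) =
      0 :: l') (hj : nth (rg l) st j = 0) : nth (rg l) st i = 0 := by
  rw [run_append, run_cons] at h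
  have h2 := (List.cons.inj h).1
  rw [ev_sub, ev_mul, ev_r, ev_r, ev_r, nth_run, nth_run, hj, mul_zero, sub_zero] at h2
  exact h2

/-- The basic registers. -/
def st0 (S x y z : K) : List K := run (rg [S, x, y, z]) [] base

/-- the value of the quintic form -/
def vF (S x y z : K) : K := nth (rg [S, x, y, z]) (st0 S x y z) 0
/-- the numerator of `u` -/
def vM (S x y z : K) : K := nth (rg [S, x, y, z]) (st0 S x y z) 16
/-- the denominator of `u` -/
def vN (S x y z : K) : K := nth (rg [S, x, y, z]) (st0 S x y z) 15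
/-- the numerator of `ρ` -/
def vR1 (S x y z : K) : K := nth (rg [S, x, y, z]) (st0 S x y z) 4
/-- the denominator of `ρ` -/
def vR2 (S x y z : K) : K := nth (rg [S, x, y, z]) (st0 S x y z) 3
/-- the numerator of `t` -/
def vO1 (S x y z : K) : K := nth (rg [S, x, y, z]) (st0 S x y z) 2
/-- the denominator of `t` -/
def vO2 (S x y z : K) : K := nth (rg [S, x, y, z]) (st0 S x y z) 1

theorem vX_eq (S x y z : K) : nth (rg [S, x, y, z]) (st0 S x y z) 22 = x + z := rfl
theorem vY_eq (S x y z : K) : nth (rg [S, x, y, z]) (st0 S x y z) 21 = y + 1 := by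
  simp only [st0, base, run_cons, run_nil, nth_succ, nth_zero, ev_add, ev_v, ev_k, vec_0, vec_s,
    Int.cast_one]
theorem vU_eq (S x y z : K) : nth (rg [S, x, y, z]) (st0 S x y z) 20 = x - z := rfl
theorem vV_eq (S x y z : K) : nth (rg [S, x, y, z]) (st0 S x y z) 19 = y - 1 := by
  simp only [st0, base, run_cons, run_nil, nth_succ, nth_zero, ev_sub, ev_v, ev_k, vec_0, vec_s,
    Int.cast_one]

/-- the numerator of `A` -/
def nA (S M N R1 R2 : K) : K :=
  N ^ 2 * N * (hor a00 S * R2 ^ 2 + hor a02 S * R1 ^ 2) +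
    M ^ 2 * N * (hor a20 S * R2 ^ 2 + hor a22 S * R1 ^ 2) +
    M * N ^ 2 * (hor a11 S * (R1 * R2)) + M ^ 2 * M * (hor a31 S * (R1 * R2))

/-- the numerator of `c` -/
def nC (S M N R1 R2 : K) : K :=
  M * N * (hor c10 S * (R2 ^ 2 * R2) + hor c12 S * (R1 ^ 2 * R2)) +
    N ^ 2 * (hor c01 S * (R1 * R2 * R2) + hor c03 S * (R1 ^ 2 * R1)) +
    M ^ 2 * (hor c21 S * (R1 * R2 * R2))

/-- the numerator of `q` -/
def nq (S M N O1 O2 : K) : K :=
  N * (hor lq00 S * O1 ^ 2 + hor lq20 S * O2 ^ 2) +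
    M * (hor lq01 S * O1 ^ 2 + hor lq11 S * (O1 * O2) + hor lq21 S * O2 ^ 2)

/-- the numerator of `r` -/
def nr (S M N O1 O2 : K) : K :=
  N * (hor lr00 S * O1 ^ 2 + hor lr10 S * (O1 * O2) + hor lr20 S * O2 ^ 2) +
    M * (hor lr01 S * O1 ^ 2 + hor lr21 S * O2 ^ 2)

/-- the numerator of `s` -/
def ns (S M N O1 O2 : K) : K :=
  N * (hor ls00 S * O1 ^ 2 + hor ls20 S * O2 ^ 2) +
    M * (hor ls01 S * O1 ^ 2 + hor ls11 S * (O1 * O2) + hor ls21 S * O2 ^ 2)

/-- the numerator of `B` -/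
def nB (S M N O1 O2 : K) : K :=
  N ^ 2 * nq S M N O1 O2 + M * N * nr S M N O1 O2 - M ^ 2 * ns S M N O1 O2

/-- the numerator of `E` -/
def nE (S M N R1 R2 O1 O2 : K) : K :=
  R1 * N * nq S M N O1 O2 - R2 * M * ns S M N O1 O2

theorem relQ (S x y z : K) (hF : vF S x y z = 0) :
    hor lB2 S * nA S (vM S x y z) (vN S x y z) (vR1 S x y z) (vR2 S x y z) +
      hor lw2 S * nB S (vM S x y z) (vN S x y z) (vO1 S x y z) (vO2 S x y z) = 0 := by
  obtain ⟨l', hl⟩ := check1_sound chkQ [S, x, y, z] rfl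
  rw [run_append, run_append, run_append] at hl
  have h := run_last [S, x, y, z] _ wqP 0 14 l' hl (by
    rw [← hF]; unfold vF st0
    generalize run (rg [S, x, y, z]) [] base = st
    simp only [acP, qP, run_cons, run_nil, nth_succ])
  unfold vM vN vR1 vR2 vO1 vO2 st0
  generalize run (rg [S, x, y, z]) [] base = st at h ⊢
  simp only [acP, qP, run_cons, run_nil, nth_succ, nth_zero, ev_add, ev_sub, ev_mul, ev_v, ev_k, ev_r,
    ev_pow, ev_hor, vec_0, vec_s] at h
  unfold nA nB nq nr ns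
  linear_combination h

theorem relC (S x y z : K) (hF : vF S x y z = 0) :
    hor lB2 S * nC S (vM S x y z) (vN S x y z) (vR1 S x y z) (vR2 S x y z) +
      hor lw2 S * nE S (vM S x y z) (vN S x y z) (vR1 S x y z) (vR2 S x y z) (vO1 S x y z)
        (vO2 S x y z) = 0 := by
  obtain ⟨l', hl⟩ := check1_sound chkC [S, x, y, z] rfl
  rw [run_append, run_append, run_append] at hl
  have h := run_last [S, x, y, z] _ wcP 0 14 l' hl (by
    rw [← hF]; unfold vF st0
    generalize run (rg [S, x, y, z]) [] base = st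
    simp only [acP, cP, run_cons, run_nil, nth_succ])
  unfold vM vN vR1 vR2 vO1 vO2 st0
  generalize run (rg [S, x, y, z]) [] base = st at h ⊢
  simp only [acP, cP, run_cons, run_nil, nth_succ, nth_zero, ev_add, ev_sub, ev_mul, ev_v, ev_k, ev_r,
    ev_pow, ev_hor, vec_0, vec_s] at h
  unfold nC nE nq ns
  linear_combination h

/-- a coefficient of a linear relation -/
def fX (S M N O1 O2 : K) : K := (hor fXO10 S * N + hor fXO11 S * M) * O1 + (hor fXO20 S * N +
  hor fXO21 S * M) * O2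
/-- a coefficient of a linear relation -/
def fY (S M N O1 O2 : K) : K := (hor fYO10 S * N + hor fYO11 S * M) * O1 + (hor fYO20 S * N +
  hor fYO21 S * M) * O2
/-- a coefficient of a linear relation -/
def fU (S M N R1 R2 : K) : K := (hor fUR10 S * N + hor fUR11 S * M) * R1 + (hor fUR20 S * N +
  hor fUR21 S * M) * R2
/-- a coefficient of a linear relation -/
def fV (S M N R1 R2 : K) : K := (hor fVR10 S * N + hor fVR11 S * M) * R1 + hor fVR20 S * N * R2
/-- a coefficient of a linear relation -/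
def gX (S M N O1 O2 : K) : K := (hor gXO10 S * N + hor gXO11 S * M) * O1 + (hor gXO20 S * N +
  hor gXO21 S * M) * O2
/-- a coefficient of a linear relation -/
def gY (S M N O1 O2 : K) : K := (hor gYO10 S * N + hor gYO11 S * M) * O1 + (hor gYO20 S * N +
  hor gYO21 S * M) * O2
/-- a coefficient of a linear relation -/
def gU (S M N R1 R2 : K) : K := (hor gUR10 S * N + hor gUR11 S * M) * R1 + (hor gUR20 S * N +
  hor gUR21 S * M) * R2
/-- a coefficient of a linear relation -/
def gV (S M N R1 R2 : K) : K := (hor gVR10 S * N + hor gVR11 S * M) * R1 + hor gVR21 S * M * R2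
/-- a coefficient of a linear relation -/
def hX (S M N R1 R2 : K) : K := (hor hXR10 S * N ^ 4 + hor hXR11 S * (M * N ^ 3) + hor hXR12 S *
  (M ^ 2 * N ^ 2) + hor hXR13 S * (M ^ 3 * N) + hor hXR14 S * M ^ 4) * R1 + (hor hXR20 S * N ^ 4
  + hor hXR21 S * (M * N ^ 3) + hor hXR22 S * (M ^ 2 * N ^ 2) + hor hXR23 S * (M ^ 3 * N) + hor
  hXR24 S * M ^ 4) * R2
/-- a coefficient of a linear relation -/
def hY (S M N R1 R2 : K) : K := (hor hYR10 S * N ^ 4 + hor hYR11 S * (M * N ^ 3) + hor hYR12 S *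
  (M ^ 2 * N ^ 2) + hor hYR13 S * (M ^ 3 * N) + hor hYR14 S * M ^ 4) * R1 + (hor hYR20 S * N ^ 4
  + hor hYR21 S * (M * N ^ 3) + hor hYR22 S * (M ^ 2 * N ^ 2) + hor hYR23 S * (M ^ 3 * N) + hor
  hYR24 S * M ^ 4) * R2
/-- a coefficient of a linear relation -/
def hU (S M N O1 O2 : K) : K := (hor hUO10 S * N ^ 4 + hor hUO11 S * (M * N ^ 3) + hor hUO12 S *
  (M ^ 2 * N ^ 2) + hor hUO13 S * (M ^ 3 * N) + hor hUO14 S * M ^ 4) * O1 + (hor hUO20 S * N ^ 4
  + hor hUO21 S * (M * N ^ 3) + hor hUO22 S * (M ^ 2 * N ^ 2) + hor hUO23 S * (M ^ 3 * N) + hor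
  hUO24 S * M ^ 4) * O2
/-- a coefficient of a linear relation -/
def hV (S M N O1 O2 : K) : K := (hor hVO10 S * N ^ 4 + hor hVO11 S * (M * N ^ 3) + hor hVO12 S *
  (M ^ 2 * N ^ 2) + hor hVO13 S * (M ^ 3 * N) + hor hVO14 S * M ^ 4) * O1 + (hor hVO20 S * N ^ 4
  + hor hVO21 S * (M * N ^ 3) + hor hVO22 S * (M ^ 2 * N ^ 2) + hor hVO23 S * (M ^ 3 * N) + hor
  hVO24 S * M ^ 4) * O2

theorem rel1 (S x y z : K) :
    (x + z) * fX S (vM S x y z) (vN S x y z) (vO1 S x y z) (vO2 S x y z) +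
      (y + 1) * fY S (vM S x y z) (vN S x y z) (vO1 S x y z) (vO2 S x y z) +
      (x - z) * fU S (vM S x y z) (vN S x y z) (vR1 S x y z) (vR2 S x y z) +
      (y - 1) * fV S (vM S x y z) (vN S x y z) (vR1 S x y z) (vR2 S x y z) = 0 := by
  obtain ⟨l', hl⟩ := check1_sound chk1 [S, x, y, z] rfl
  rw [run_append, run_append] at hl
  rw [← vX_eq S x y z, ← vY_eq S x y z, ← vU_eq S x y z, ← vV_eq S x y z]
  unfold vM vN vR1 vR2 vO1 vO2 st0
  generalize run (rg [S, x, y, z]) [] base = st at hl ⊢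
  simp only [rowsP, f1P, run_cons, run_nil, nth_succ, nth_zero, ev_add, ev_sub, ev_mul, ev_v, ev_k,
    ev_r, ev_pow, ev_hor, vec_0, vec_s] at hl
  have h := (List.cons.inj hl).1
  unfold fX fY fU fV
  linear_combination h

theorem rel2 (S x y z : K) :
    (x + z) * gX S (vM S x y z) (vN S x y z) (vO1 S x y z) (vO2 S x y z) +
      (y + 1) * gY S (vM S x y z) (vN S x y z) (vO1 S x y z) (vO2 S x y z) +
      (x - z) * gU S (vM S x y z) (vN S x y z) (vR1 S x y z) (vR2 S x y z) +
      (y - 1) * gV S (vM S x y z) (vN S x y z) (vR1 S x y z) (vR2 S x y z) = 0 := by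
  obtain ⟨l', hl⟩ := check1_sound chk2 [S, x, y, z] rfl
  rw [run_append, run_append] at hl
  rw [← vX_eq S x y z, ← vY_eq S x y z, ← vU_eq S x y z, ← vV_eq S x y z]
  unfold vM vN vR1 vR2 vO1 vO2 st0
  generalize run (rg [S, x, y, z]) [] base = st at hl ⊢
  simp only [rowsP, f2P, run_cons, run_nil, nth_succ, nth_zero, ev_add, ev_sub, ev_mul, ev_v, ev_k,
    ev_r, ev_pow, ev_hor, vec_0, vec_s] at hl
  have h := (List.cons.inj hl).1
  unfold gX gY gU gV
  linear_combination h

theorem rel3 (S x y z : K) :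
    (x + z) * hX S (vM S x y z) (vN S x y z) (vR1 S x y z) (vR2 S x y z) +
      (y + 1) * hY S (vM S x y z) (vN S x y z) (vR1 S x y z) (vR2 S x y z) +
      (x - z) * hU S (vM S x y z) (vN S x y z) (vO1 S x y z) (vO2 S x y z) +
      (y - 1) * hV S (vM S x y z) (vN S x y z) (vO1 S x y z) (vO2 S x y z) = 0 := by
  obtain ⟨l', hl⟩ := check1_sound chk3 [S, x, y, z] rfl
  rw [run_append, run_append] at hl
  rw [← vX_eq S x y z, ← vY_eq S x y z, ← vU_eq S x y z, ← vV_eq S x y z]
  unfold vM vN vR1 vR2 vO1 vO2 st0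
  generalize run (rg [S, x, y, z]) [] base = st at hl ⊢
  simp only [rowsP, f3P, run_cons, run_nil, nth_succ, nth_zero, ev_add, ev_sub, ev_mul, ev_v, ev_k,
    ev_r, ev_pow, ev_hor, vec_0, vec_s] at hl
  have h := (List.cons.inj hl).1
  unfold hX hY hU hV
  linear_combination h

end Vale.Agent.P297.H572
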