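import Vale.Agent.P297.H572.Ev

/-! Nonvanishing modulo a cubic polynomial, for all but finitely many parameters, from a check
modulo a prime. -/

namespace Vale.Agent.P297.H572

open Polynomial

/-- the ring of polynomials in the parameter and two variables -/
abbrev A3 := MvPolynomial (Fin 3) ℤ

/-- the four variables -/
noncomputable def gen4 : List A3[X] :=
  [C (MvPolynomial.X 0), C (MvPolynomial.X 1), C (MvPolynomial.X 2), X]

/-- the coefficients of a cubic polynomial -/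
noncomputable def cubic {R : Type*} [CommRing R] (c3 c2 c1 c0 : R) : R[X] :=
  C c3 * X ^ 3 + C c2 * X ^ 2 + C c1 * X + C c0

theorem cubic_natDegree_le {R : Type*} [CommRing R] (c3 c2 c1 c0 : R) :
    (cubic c3 c2 c1 c0).natDegree ≤ 3 := by
  unfold cubic
  compute_degree

theorem cubic_map {R S : Type*} [CommRing R] [CommRing S] (f : R →+* S) (c3 c2 c1 c0 : R) :
    (cubic c3 c2 c1 c0).map f = cubic (f c3) (f c2) (f c1) (f c0) := by
  simp [cubic]

theorem cubic_factor {R : Type*} [CommRing R] {c3 c2 c1 c0 z1 z2 z3 : R}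
    (h2 : c2 = -(c3 * (z1 + z2 + z3))) (h1 : c1 = c3 * (z1 * z2 + z1 * z3 + z2 * z3))
    (h0 : c0 = -(c3 * (z1 * z2 * z3))) :
    cubic c3 c2 c1 c0 = C c3 * ((X - C z1) * ((X - C z2) * (X - C z3))) := by
  unfold cubic
  rw [h2, h1, h0]
  simp only [map_neg, map_mul, map_add]
  ring

theorem coprime_cubic {F : Type*} [Field F] {c3 c2 c1 c0 z1 z2 z3 : F} (h3 : c3 ≠ 0)
    (h2 : c2 = -(c3 * (z1 + z2 + z3))) (h1 : c1 = c3 * (z1 * z2 + z1 * z3 + z2 * z3))
    (h0 : c0 = -(c3 * (z1 * z2 * z3))) (P : F[X]) (k1 : P.eval z1 ≠ 0) (k2 : P.eval z2 ≠ 0)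
    (k3 : P.eval z3 ≠ 0) : IsCoprime (cubic c3 c2 c1 c0) P := by
  have hc : ∀ z, P.eval z ≠ 0 → IsCoprime (X - C z) P := by
    intro z hz
    refine (irreducible_X_sub_C z).coprime_iff_not_dvd.mpr ?_
    rw [dvd_iff_isRoot]
    exact hz
  rw [cubic_factor h2 h1 h0]
  refine IsCoprime.mul_left ?_ ((hc z1 k1).mul_left ((hc z2 k2).mul_left (hc z3 k3)))
  have hu : IsUnit (C c3 : F[X]) := isUnit_C.mpr (isUnit_iff_ne_zero.mpr h3)
  obtain ⟨u, hu⟩ := hu
  exact ⟨(u⁻¹ : F[X]ˣ), 0, by rw [← hu, Units.inv_mul]; ring⟩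

theorem cubic_natDegree {R : Type*} [CommRing R] {c3 c2 c1 c0 : R} (h : c3 ≠ 0) :
    (cubic c3 c2 c1 c0).natDegree = 3 := by
  unfold cubic
  compute_degree!

theorem resultant_ne {F : Type*} [Field F] {c3 c2 c1 c0 : F} (h3 : c3 ≠ 0) (P : F[X]) (n : ℕ)
    (hn : P.natDegree ≤ n) (h : IsCoprime (cubic c3 c2 c1 c0) P) :
    resultant (cubic c3 c2 c1 c0) P 3 n ≠ 0 := by
  obtain ⟨k, rfl⟩ := Nat.exists_eq_add_of_le hn
  rw [resultant_add_right_deg _ _ _ _ _ le_rfl]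
  have h4 : (cubic c3 c2 c1 c0).coeff 3 = c3 := by
    simp [cubic]
  rw [h4]
  refine mul_ne_zero (pow_ne_zero _ h3) ?_
  have h5 := resultant_ne_zero _ _ h
  rwa [cubic_natDegree h3] at h5

/-- Nonvanishing modulo a cubic polynomial. -/
theorem nonvanish (prog : List E1) (c3 c2 c1 c0 : A3) (i : ℕ)
    (hF : nth (rg gen4) (run (rg gen4) [] prog) i = cubic c3 c2 c1 c0)
    (p : ℕ) [Fact p.Prime] (s0 x0 y0 : ℕ) (z1 z2 z3 : ℕ)
    (h3 : MvPolynomial.aeval ![(s0 : ZMod p), (x0 : ZMod p), (y0 : ZMod p)] c3 ≠ 0)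
    (h2 : MvPolynomial.aeval ![(s0 : ZMod p), (x0 : ZMod p), (y0 : ZMod p)] c2 =
      -(MvPolynomial.aeval ![(s0 : ZMod p), (x0 : ZMod p), (y0 : ZMod p)] c3 * (z1 + z2 + z3)))
    (h1 : MvPolynomial.aeval ![(s0 : ZMod p), (x0 : ZMod p), (y0 : ZMod p)] c1 =
      MvPolynomial.aeval ![(s0 : ZMod p), (x0 : ZMod p), (y0 : ZMod p)] c3 *
        (z1 * z2 + z1 * z3 + z2 * z3))
    (h0 : MvPolynomial.aeval ![(s0 : ZMod p), (x0 : ZMod p), (y0 : ZMod p)] c0 =
      -(MvPolynomial.aeval ![(s0 : ZMod p), (x0 : ZMod p), (y0 : ZMod p)] c3 * (z1 * z2 * z3)))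
    (k1 : Nat.beq (nth (boM p [s0, x0, y0, z1]) (run (boM p [s0, x0, y0, z1]) [] prog) 0 % p) 0 =
      false)
    (k2 : Nat.beq (nth (boM p [s0, x0, y0, z2]) (run (boM p [s0, x0, y0, z2]) [] prog) 0 % p) 0 =
      false)
    (k3 : Nat.beq (nth (boM p [s0, x0, y0, z3]) (run (boM p [s0, x0, y0, z3]) [] prog) 0 % p) 0 =
      false) :
    ∃ S : Finset ℂ, ∀ s ∉ S, ∀ (K : Type) [Field K] [Algebra ℂ K] (x y z : K),
      AlgebraicIndependent ℂ ![x, y] →
      nth (rg [algebraMap ℂ K s, x, y, z]) (run (rg [algebraMap ℂ K s, x, y, z]) [] prog) i = 0 →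
      nth (rg [algebraMap ℂ K s, x, y, z]) (run (rg [algebraMap ℂ K s, x, y, z]) [] prog) 0 ≠ 0 := by
  have hp : 0 < p := (Fact.out : p.Prime).pos
  obtain ⟨P, hP⟩ : ∃ P, P = nth (rg gen4) (run (rg gen4) [] prog) 0 := ⟨_, rfl⟩
  obtain ⟨φ, hφ⟩ : ∃ φ : A3 →+* ZMod p, φ = (MvPolynomial.aeval
    ![(s0 : ZMod p), (x0 : ZMod p), (y0 : ZMod p)]).toRingHom := ⟨_, rfl⟩
  -- evaluation modulo p
  have key : ∀ z : ℕ, Nat.beq (nth (boM p [s0, x0, y0, z])
      (run (boM p [s0, x0, y0, z]) [] prog) 0 % p) 0 = false →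
      (P.map φ).eval (z : ZMod p) ≠ 0 := by
    intro z hz
    have e1 := rel_nth (rel_mod p hp [s0, x0, y0, z]) (rel_run (rel_mod p hp [s0, x0, y0, z])
      prog .nil) 0
    have e2 := rel_nth (rel_hom ((evalRingHom (z : ZMod p)).comp (mapRingHom φ)) gen4)
      (rel_run (rel_hom ((evalRingHom (z : ZMod p)).comp (mapRingHom φ)) gen4) prog .nil) 0
    have e3 : gen4.map ((evalRingHom (z : ZMod p)).comp (mapRingHom φ)) =
        [s0, x0, y0, z].map (Nat.cast : ℕ → ZMod p) := by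
      simp [gen4, hφ]
    rw [e3, ← e1, ← hP] at e2
    have e4 : (P.map φ).eval (z : ZMod p) =
        ((nth (boM p [s0, x0, y0, z]) (run (boM p [s0, x0, y0, z]) [] prog) 0 : ℕ) : ZMod p) := e2
    rw [e4, Ne, ZMod.natCast_eq_zero_iff, Nat.dvd_iff_mod_eq_zero]
    intro h
    rw [h] at hz
    simp at hz
  obtain ⟨res, hres⟩ : ∃ res, res = resultant (cubic c3 c2 c1 c0) P 3 P.natDegree := ⟨_, rfl⟩
  have hφres : φ res ≠ 0 := by
    rw [hres, ← resultant_map_map, cubic_map]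
    subst hφ
    refine resultant_ne h3 _ _ (natDegree_map_le) ?_
    exact coprime_cubic h3 h2 h1 h0 _ (key z1 k1) (key z2 k2) (key z3 k3)
  obtain ⟨a, b, -, -, hab⟩ := exists_mul_add_mul_eq_C_resultant (m := 3) (n := P.natDegree)
    (cubic c3 c2 c1 c0) P (cubic_natDegree_le _ _ _ _) le_rfl (Or.inl (by norm_num))
  rw [← hres] at hab
  -- the specialization at `(x0, y0)`
  obtain ⟨ψ, hψ⟩ : ∃ ψ : A3 →+* ℤ[X], ψ = (MvPolynomial.aeval
    ![(X : ℤ[X]), C (x0 : ℤ), C (y0 : ℤ)]).toRingHom := ⟨_, rfl⟩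
  have hψ0 : ψ res ≠ 0 := by
    intro h
    apply hφres
    have e : φ = ((eval₂RingHom (Int.castRingHom (ZMod p)) (s0 : ZMod p))).comp ψ := by
      apply MvPolynomial.ringHom_ext
      · intro r
        simp [hφ, hψ]
      · intro j
        fin_cases j <;> simp [hφ, hψ]
    rw [e, RingHom.comp_apply, h, map_zero]
  refine ⟨((ψ res).map (Int.castRingHom ℂ)).roots.toFinset, ?_⟩
  intro s hs K _ _ x y z hxy hFz hPz
  have hmap0 : (ψ res).map (Int.castRingHom ℂ) ≠ 0 := by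
    intro h
    apply hψ0
    have hinj : Function.Injective (Int.castRingHom ℂ) := RingHom.injective_int _
    exact (Polynomial.map_injective _ hinj) (by rw [h, Polynomial.map_zero])
  have hs0 : ((ψ res).map (Int.castRingHom ℂ)).eval s ≠ 0 := by
    intro h
    apply hs
    rw [Multiset.mem_toFinset, mem_roots hmap0]
    exact h
  -- the polynomial in two variables
  obtain ⟨χ, hχ⟩ : ∃ χ : A3 →+* MvPolynomial (Fin 2) ℂ, χ = (MvPolynomial.aeval
    ![MvPolynomial.C s, (MvPolynomial.X 0 : MvPolynomial (Fin 2) ℂ), MvPolynomial.X 1]).toRingHom :=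
    ⟨_, rfl⟩
  have hχ0 : χ res ≠ 0 := by
    intro h
    apply hs0
    have e : (evalRingHom s).comp ((mapRingHom (Int.castRingHom ℂ)).comp ψ) =
        (MvPolynomial.aeval ![(x0 : ℂ), (y0 : ℂ)]).toRingHom.comp χ := by
      apply MvPolynomial.ringHom_ext
      · intro r
        simp [hχ, hψ]
      · intro j
        fin_cases j <;> simp [hχ, hψ]
    have e2 : ((ψ res).map (Int.castRingHom ℂ)).eval s =
        ((evalRingHom s).comp ((mapRingHom (Int.castRingHom ℂ)).comp ψ)) res := rfl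
    rw [e2, e, RingHom.comp_apply, h, map_zero]
  -- the evaluation at the point
  obtain ⟨ω, hω⟩ : ∃ ω : A3 →+* K, ω = (MvPolynomial.aeval
    ![algebraMap ℂ K s, x, y]).toRingHom := ⟨_, rfl⟩
  have hω0 : ω res ≠ 0 := by
    have e : ω = (MvPolynomial.aeval ![x, y]).toRingHom.comp χ := by
      apply MvPolynomial.ringHom_ext
      · intro r
        simp [hχ, hω]
      · intro j
        fin_cases j <;> simp [hχ, hω]
    rw [e, RingHom.comp_apply]
    intro h
    exact hχ0 ((injective_iff_map_eq_zero _).mp hxy _ h)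
  have e3 : gen4.map (eval₂RingHom ω z) = [algebraMap ℂ K s, x, y, z] := by
    simp [gen4, hω]
  have e4 := rel_nth (rel_hom (eval₂RingHom ω z) gen4)
      (rel_run (rel_hom (eval₂RingHom ω z) gen4) prog .nil)
  rw [e3] at e4
  apply hω0
  have e5 := congrArg (eval₂RingHom ω z) hab
  rw [map_add, map_mul, map_mul, ← hF, e4 i, hFz, hP, e4 0, hPz, zero_mul, zero_mul, add_zero] at e5
  simpa using e5.symm

end Vale.Agent.P297.H572
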