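import Vale.Agent.P297.H572.NzTab
import Vale.Agent.P297.H572.KSide
import Vale.Agent.P297.H572.NonVan

/-! Nonvanishing of the denominators, for all but finitely many parameters. -/

set_option linter.unusedSimpArgs false

namespace Vale.Agent.P297.H572

open Polynomial

section

variable {R : Type*} [CommRing R] (S x y : R)

/-- the coefficient of `z³` in the quintic form -/
def F3 : R := S ^ 2 * (hor la1 S + hor la2 S * x + hor la3 S * y) ^ 2

/-- the coefficient of `z²` in the quintic form -/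
def F2 : R :=
  S ^ 2 * (x ^ 3 * hor la2 S ^ 2 + y ^ 3 * hor la1 S ^ 2 + hor la3 S ^ 2) +
    hor lP S * (y ^ 2 + x) + hor lQ S * (x * y ^ 2 + y) + hor lR S * (x ^ 2 * y + x ^ 2) +
    hor lS S * (x * y)

/-- the coefficient of `z` in the quintic form -/
def F1 : R :=
  2 * S ^ 2 * (x ^ 3 * hor la2 S * (hor la1 S * y + hor la3 S) +
      y ^ 3 * hor la1 S * (hor la2 S + hor la3 S * x) +
      hor la3 S * (hor la1 S * x + hor la2 S * y)) +
    hor lP S * (x ^ 2 * y ^ 2) + hor lQ S * x ^ 2 + hor lR S * y ^ 2 +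
    hor lS S * (x ^ 2 * y + x * y ^ 2 + x * y)

/-- the constant coefficient of the quintic form -/
def F0 : R :=
  S ^ 2 * (x ^ 3 * (hor la1 S * y + hor la3 S) ^ 2 + y ^ 3 * (hor la2 S + hor la3 S * x) ^ 2 +
      (hor la1 S * x + hor la2 S * y) ^ 2) +
    hor lP S * (x ^ 2 * y) + hor lQ S * (x ^ 2 * y ^ 2) + hor lR S * (x * y ^ 2)

theorem vF_eq (z : R) : vF S x y z =
    F3 S x y * z ^ 3 + F2 S x y * z ^ 2 + F1 S x y * z + F0 S x y := by
  unfold vF st0
  simp only [base, run_cons, run_nil, nth_succ, nth_zero, ev_add, ev_sub, ev_mul, ev_v, ev_k, ev_r,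
    ev_pow, ev_hor, vec_0, vec_s, Int.cast_one]
  unfold F3 F2 F1 F0
  ring

end

section

variable {R T : Type*} [CommRing R] [CommRing T] (f : R →+* T) (S x y : R)

theorem map_F3 : f (F3 S x y) = F3 (f S) (f x) (f y) := by
  simp only [F3, map_add, map_mul, map_pow, map_hor]

theorem map_F2 : f (F2 S x y) = F2 (f S) (f x) (f y) := by
  simp only [F2, map_add, map_mul, map_pow, map_hor]

theorem map_F1 : f (F1 S x y) = F1 (f S) (f x) (f y) := by
  simp only [F1, map_add, map_mul, map_pow, map_hor, map_ofNat]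

theorem map_F0 : f (F0 S x y) = F0 (f S) (f x) (f y) := by
  simp only [F0, map_add, map_mul, map_pow, map_hor]

end

instance : Fact (Nat.Prime 101) := ⟨by norm_num⟩

/-- the whole program -/
def prog : List E1 := base ++ (rowsP ++ (acnP ++ nzP))

theorem nth_prog {K : Type*} [CommRing K] (S x y z : K) :
    nth (rg [S, x, y, z]) (run (rg [S, x, y, z]) [] prog) 36 = vF S x y z := by
  unfold prog vF st0
  rw [run_append, run_append, run_append]
  rw [show (36 : ℕ) = nzP.length + (acnP.length + (rowsP.length + 0)) from rfl, nth_run, nth_run,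
    nth_run]

theorem nonvan : ∃ S : Finset ℂ, ∀ s ∉ S, ∀ (K : Type) [Field K] [Algebra ℂ K] (x y z : K),
      AlgebraicIndependent ℂ ![x, y] → vF (algebraMap ℂ K s) x y z = 0 →
      nth (rg [algebraMap ℂ K s, x, y, z])
        (run (rg [algebraMap ℂ K s, x, y, z]) [] prog) 0 ≠ 0 := by
  have h := nonvanish prog (F3 (MvPolynomial.X 0) (MvPolynomial.X 1) (MvPolynomial.X 2))
    (F2 (MvPolynomial.X 0) (MvPolynomial.X 1) (MvPolynomial.X 2))
    (F1 (MvPolynomial.X 0) (MvPolynomial.X 1) (MvPolynomial.X 2))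
    (F0 (MvPolynomial.X 0) (MvPolynomial.X 1) (MvPolynomial.X 2)) 36
    (by
      unfold gen4
      rw [nth_prog, vF_eq]
      unfold cubic
      rw [map_F3 C, map_F2 C, map_F1 C, map_F0 C])
    101 76 70 16 69 90 92
    (by
      have e := map_F3 (MvPolynomial.aeval ![((76 : ℕ) : ZMod 101), ((70 : ℕ) : ZMod 101),
        ((16 : ℕ) : ZMod 101)] : MvPolynomial (Fin 3) ℤ →ₐ[ℤ] ZMod 101).toRingHom
        (MvPolynomial.X 0) (MvPolynomial.X 1) (MvPolynomial.X 2)
      simp only [AlgHom.toRingHom_eq_coe, RingHom.coe_coe, MvPolynomial.aeval_X,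
        Matrix.cons_val_zero, Matrix.cons_val_one, Matrix.cons_val] at e
      rw [e]
      decide +kernel)
    (by
      have e := map_F3 (MvPolynomial.aeval ![((76 : ℕ) : ZMod 101), ((70 : ℕ) : ZMod 101),
        ((16 : ℕ) : ZMod 101)] : MvPolynomial (Fin 3) ℤ →ₐ[ℤ] ZMod 101).toRingHom
        (MvPolynomial.X 0) (MvPolynomial.X 1) (MvPolynomial.X 2)
      have e2 := map_F2 (MvPolynomial.aeval ![((76 : ℕ) : ZMod 101), ((70 : ℕ) : ZMod 101),
        ((16 : ℕ) : ZMod 101)] : MvPolynomial (Fin 3) ℤ →ₐ[ℤ] ZMod 101).toRingHom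
        (MvPolynomial.X 0) (MvPolynomial.X 1) (MvPolynomial.X 2)
      simp only [AlgHom.toRingHom_eq_coe, RingHom.coe_coe, MvPolynomial.aeval_X,
        Matrix.cons_val_zero, Matrix.cons_val_one, Matrix.cons_val] at e e2
      rw [e, e2]
      decide +kernel)
    (by
      have e := map_F3 (MvPolynomial.aeval ![((76 : ℕ) : ZMod 101), ((70 : ℕ) : ZMod 101),
        ((16 : ℕ) : ZMod 101)] : MvPolynomial (Fin 3) ℤ →ₐ[ℤ] ZMod 101).toRingHom
        (MvPolynomial.X 0) (MvPolynomial.X 1) (MvPolynomial.X 2)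
      have e2 := map_F1 (MvPolynomial.aeval ![((76 : ℕ) : ZMod 101), ((70 : ℕ) : ZMod 101),
        ((16 : ℕ) : ZMod 101)] : MvPolynomial (Fin 3) ℤ →ₐ[ℤ] ZMod 101).toRingHom
        (MvPolynomial.X 0) (MvPolynomial.X 1) (MvPolynomial.X 2)
      simp only [AlgHom.toRingHom_eq_coe, RingHom.coe_coe, MvPolynomial.aeval_X,
        Matrix.cons_val_zero, Matrix.cons_val_one, Matrix.cons_val] at e e2
      rw [e, e2]
      decide +kernel)
    (by
      have e := map_F3 (MvPolynomial.aeval ![((76 : ℕ) : ZMod 101), ((70 : ℕ) : ZMod 101),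
        ((16 : ℕ) : ZMod 101)] : MvPolynomial (Fin 3) ℤ →ₐ[ℤ] ZMod 101).toRingHom
        (MvPolynomial.X 0) (MvPolynomial.X 1) (MvPolynomial.X 2)
      have e2 := map_F0 (MvPolynomial.aeval ![((76 : ℕ) : ZMod 101), ((70 : ℕ) : ZMod 101),
        ((16 : ℕ) : ZMod 101)] : MvPolynomial (Fin 3) ℤ →ₐ[ℤ] ZMod 101).toRingHom
        (MvPolynomial.X 0) (MvPolynomial.X 1) (MvPolynomial.X 2)
      simp only [AlgHom.toRingHom_eq_coe, RingHom.coe_coe, MvPolynomial.aeval_X,
        Matrix.cons_val_zero, Matrix.cons_val_one, Matrix.cons_val] at e e2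
      rw [e, e2]
      decide +kernel)
    (by decide +kernel) (by decide +kernel) (by decide +kernel)
  obtain ⟨S, hS⟩ := h
  refine ⟨S, fun s hs K _ _ x y z hxy hF => hS s hs K x y z hxy ?_⟩
  rw [nth_prog]
  exact hF

section

variable {K : Type*} [CommRing K]

/-- the numerator of the leading coefficient of `B` -/
def nb0 (S M N : K) : K :=
  N ^ 2 * (N * hor lq00 S + M * hor lq01 S) + M * N * (N * hor lr00 S + M * hor lr01 S) -
    M ^ 2 * (N * hor ls00 S + M * hor ls01 S)

/-- the numerator of the leading coefficient of `E` -/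
def ne0 (S M N R1 R2 : K) : K :=
  R1 * N * (N * hor lq00 S + M * hor lq01 S) - R2 * M * (N * hor ls00 S + M * hor ls01 S)

/-- a `3 × 3` determinant -/
def det3 (a1 a2 a3 b1 b2 b3 c1 c2 c3 : K) : K :=
  a1 * (b2 * c3 - b3 * c2) - a2 * (b1 * c3 - b3 * c1) + a3 * (b1 * c2 - b2 * c1)

/-- the denominator in Cramer's rule -/
def dW (S M N R1 R2 O1 O2 : K) : K :=
  det3 (fX S M N O1 O2) (fY S M N O1 O2) (fU S M N R1 R2)
      (gX S M N O1 O2) (gY S M N O1 O2) (gU S M N R1 R2)
      (hX S M N R1 R2) (hY S M N R1 R2) (hU S M N O1 O2) -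
    det3 (fX S M N O1 O2) (fU S M N R1 R2) (fV S M N R1 R2)
      (gX S M N O1 O2) (gU S M N R1 R2) (gV S M N R1 R2)
      (hX S M N R1 R2) (hU S M N O1 O2) (hV S M N O1 O2)

theorem nth_nz (S x y z : K) :
    nth (rg [S, x, y, z]) (run (rg [S, x, y, z]) [] prog) 0 =
      vN S x y z * vR2 S x y z * vO2 S x y z *
      nB S (vM S x y z) (vN S x y z) (vO1 S x y z) (vO2 S x y z) *
      (nC S (vM S x y z) (vN S x y z) (vR1 S x y z) (vR2 S x y z) *
          nb0 S (vM S x y z) (vN S x y z) -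
        nA S (vM S x y z) (vN S x y z) (vR1 S x y z) (vR2 S x y z) *
          ne0 S (vM S x y z) (vN S x y z) (vR1 S x y z) (vR2 S x y z)) *
      dW S (vM S x y z) (vN S x y z) (vR1 S x y z) (vR2 S x y z) (vO1 S x y z) (vO2 S x y z) := by
  unfold prog
  rw [run_append, run_append, run_append]
  unfold vM vN vR1 vR2 vO1 vO2 st0
  generalize run (rg [S, x, y, z]) [] base = st
  simp only [rowsP, acnP, nzP, run_cons, run_nil, nth_succ, nth_zero, ev_add, ev_sub, ev_mul, ev_v,
    ev_k, ev_r, ev_pow, ev_hor, vec_0, vec_s]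
  rfl

end

end Vale.Agent.P297.H572
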