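import Vale.Agent.P297.H572.Data
import Vale.Agent.P297.H572.NzMain

/-! The data of the family and the forms. -/

set_option linter.unusedSimpArgs false

namespace Vale.Agent.P297.H572

open Vale.Agent.P297.H424

section

variable {K : Type*} [CommRing K] [Algebra ℂ K] (s : ℂ) (u ρ t N R2 O2 : K)

theorem hv_a : hv (d := 2) (D s).a u ρ 1 =
    hor a00 (algebraMap ℂ K s) + hor a02 (algebraMap ℂ K s) * ρ ^ 2 +
      (hor a20 (algebraMap ℂ K s) + hor a22 (algebraMap ℂ K s) * ρ ^ 2) * u ^ 2 +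
      hor a11 (algebraMap ℂ K s) * u * ρ + hor a31 (algebraMap ℂ K s) * u ^ 3 * ρ := by
  simp [hv, D, Fin.sum_univ_succ, map_hor]
  ring

theorem hv_c : hv (d := 3) (D s).c u ρ 1 =
    hor c01 (algebraMap ℂ K s) * ρ + hor c03 (algebraMap ℂ K s) * ρ ^ 3 +
      (hor c10 (algebraMap ℂ K s) + hor c12 (algebraMap ℂ K s) * ρ ^ 2) * u +
      hor c21 (algebraMap ℂ K s) * u ^ 2 * ρ := by
  simp [hv, D, Fin.sum_univ_succ, map_hor]
  ring

theorem mat00 : (D s).mat u 0 0 = hor lq00 (algebraMap ℂ K s) + u * hor lq01 (algebraMap ℂ K s) := by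
  simp [Net.mat, D, map_hor]
theorem mat10 : (D s).mat u 1 0 = u * hor lq11 (algebraMap ℂ K s) := by
  simp [Net.mat, D, map_hor]
theorem mat20 : (D s).mat u 2 0 = hor lq20 (algebraMap ℂ K s) + u * hor lq21 (algebraMap ℂ K s) := by
  simp [Net.mat, D, map_hor]
theorem mat01 : (D s).mat u 0 1 = hor lr00 (algebraMap ℂ K s) + u * hor lr01 (algebraMap ℂ K s) := by
  simp [Net.mat, D, map_hor]
theorem mat11 : (D s).mat u 1 1 = hor lr10 (algebraMap ℂ K s) := by
  simp [Net.mat, D, map_hor]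
theorem mat21 : (D s).mat u 2 1 = hor lr20 (algebraMap ℂ K s) + u * hor lr21 (algebraMap ℂ K s) := by
  simp [Net.mat, D, map_hor]
theorem mat02 : (D s).mat u 0 2 = hor ls00 (algebraMap ℂ K s) + u * hor ls01 (algebraMap ℂ K s) := by
  simp [Net.mat, D, map_hor]
theorem mat12 : (D s).mat u 1 2 = u * hor ls11 (algebraMap ℂ K s) := by
  simp [Net.mat, D, map_hor]
theorem mat22 : (D s).mat u 2 2 = hor ls20 (algebraMap ℂ K s) + u * hor ls21 (algebraMap ℂ K s) := by
  simp [Net.mat, D, map_hor]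

theorem nA_eq : nA (algebraMap ℂ K s) (u * N) N (ρ * R2) R2 =
    N ^ 3 * R2 ^ 2 * hv (d := 2) (D s).a u ρ 1 := by
  rw [hv_a]; unfold nA; ring

theorem nC_eq : nC (algebraMap ℂ K s) (u * N) N (ρ * R2) R2 =
    N ^ 2 * R2 ^ 3 * hv (d := 3) (D s).c u ρ 1 := by
  rw [hv_c]; unfold nC; ring

theorem nB_eq : nB (algebraMap ℂ K s) (u * N) N (t * O2) O2 =
    N ^ 3 * O2 ^ 2 * ((D s).bb u 0 * t ^ 2 + (D s).bb u 1 * t + (D s).bb u 2) := by
  unfold nB nq nr ns Net.bb
  rw [mat00, mat10, mat20, mat01, mat11, mat21, mat02, mat12, mat22]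
  ring

theorem nE_eq : nE (algebraMap ℂ K s) (u * N) N (ρ * R2) R2 (t * O2) O2 =
    N ^ 2 * R2 * O2 ^ 2 * ((D s).ee u ρ 0 * t ^ 2 + (D s).ee u ρ 1 * t + (D s).ee u ρ 2) := by
  unfold nE nq ns Net.ee
  rw [mat00, mat10, mat20, mat02, mat12, mat22]
  ring

theorem nb0_eq : nb0 (algebraMap ℂ K s) (u * N) N = N ^ 3 * (D s).bb u 0 := by
  unfold nb0 Net.bb
  rw [mat00, mat01, mat02]
  ring

theorem ne0_eq : ne0 (algebraMap ℂ K s) (u * N) N (ρ * R2) R2 = N ^ 2 * R2 * (D s).ee u ρ 0 := by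
  unfold ne0 Net.ee
  rw [mat00, mat02]
  ring

end

/-- An integer polynomial that is not zero at some integer has finitely many zeros. -/
theorem hor_fin (l : List ℤ) (a : ℤ) (h : hor l a ≠ 0) :
    ∃ S : Finset ℂ, ∀ s ∉ S, hor l s ≠ 0 := by
  have e : ∀ s : ℂ, (hor l (Polynomial.X : Polynomial ℂ)).eval s = hor l s := by
    intro s
    have := map_hor (Polynomial.evalRingHom s) l Polynomial.X
    simpa using this
  have h0 : hor l (Polynomial.X : Polynomial ℂ) ≠ 0 := by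
    intro h1
    have h2 := e (a : ℂ)
    rw [h1, Polynomial.eval_zero] at h2
    have h3 := map_hor (Int.castRingHom ℂ) l a
    apply h
    have h4 : ((hor l a : ℤ) : ℂ) = 0 := by
      rw [h2]
      simpa using h3
    exact_mod_cast h4
  refine ⟨(hor l (Polynomial.X : Polynomial ℂ)).roots.toFinset, fun s hs h1 => hs ?_⟩
  rw [Multiset.mem_toFinset, Polynomial.mem_roots h0]
  rw [← e s] at h1
  exact h1

end Vale.Agent.P297.H572
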