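import Vale.Agent.P297.H572.Asm1

/-! Generation and independence. -/

set_option linter.unusedSimpArgs false
set_option linter.unusedSectionVars false

namespace Vale.Agent.P297.H572

open Vale.Agent.P297 Vale.Agent.P297.H424 Vale.Agent.P297.H839 IntermediateField

section cramer

variable {K : Type} [Field K] [Algebra ℂ K] (L : IntermediateField ℂ K)

theorem hor_mem (l : List ℤ) {S : K} (hS : S ∈ L) : hor l S ∈ L := by
  induction l with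
  | nil => exact zero_mem L
  | cons a l ih => exact add_mem (intCast_mem L a) (mul_mem hS ih)

theorem det3_mem {a1 a2 a3 b1 b2 b3 c1 c2 c3 : K} (h1 : a1 ∈ L) (h2 : a2 ∈ L) (h3 : a3 ∈ L)
    (h4 : b1 ∈ L) (h5 : b2 ∈ L) (h6 : b3 ∈ L) (h7 : c1 ∈ L) (h8 : c2 ∈ L) (h9 : c3 ∈ L) :
    det3 a1 a2 a3 b1 b2 b3 c1 c2 c3 ∈ L :=
  add_mem (sub_mem (mul_mem h1 (sub_mem (mul_mem h5 h9) (mul_mem h6 h8)))
    (mul_mem h2 (sub_mem (mul_mem h4 h9) (mul_mem h6 h7))))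
    (mul_mem h3 (sub_mem (mul_mem h4 h8) (mul_mem h5 h7)))

theorem cramer {X Y U V a1 a2 a3 a4 b1 b2 b3 b4 c1 c2 c3 c4 : K}
    (ha : X * a1 + Y * a2 + U * a3 + V * a4 = 0) (hb : X * b1 + Y * b2 + U * b3 + V * b4 = 0)
    (hc : X * c1 + Y * c2 + U * c3 + V * c4 = 0) (hYV : Y - V = 2)
    (hd : det3 a1 a2 a3 b1 b2 b3 c1 c2 c3 - det3 a1 a3 a4 b1 b3 b4 c1 c3 c4 ≠ 0)
    (h1 : a1 ∈ L) (h2 : a2 ∈ L) (h3 : a3 ∈ L) (h4 : a4 ∈ L)
    (k1 : b1 ∈ L) (k2 : b2 ∈ L) (k3 : b3 ∈ L) (k4 : b4 ∈ L)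
    (l1 : c1 ∈ L) (l2 : c2 ∈ L) (l3 : c3 ∈ L) (l4 : c4 ∈ L) :
    X ∈ L ∧ Y ∈ L ∧ U ∈ L := by
  have hdL : det3 a1 a2 a3 b1 b2 b3 c1 c2 c3 - det3 a1 a3 a4 b1 b3 b4 c1 c3 c4 ∈ L :=
    sub_mem (det3_mem L h1 h2 h3 k1 k2 k3 l1 l2 l3) (det3_mem L h1 h3 h4 k1 k3 k4 l1 l3 l4)
  have h2L : (2 : K) ∈ L := ofNat_mem L 2
  have eX : X * (det3 a1 a2 a3 b1 b2 b3 c1 c2 c3 - det3 a1 a3 a4 b1 b3 b4 c1 c3 c4) =
      2 * det3 a2 a3 a4 b2 b3 b4 c2 c3 c4 := by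
    unfold det3
    linear_combination (-(b3 * c4 - b4 * c3) + (b2 * c3 - b3 * c2)) * ha +
      ((a3 * c4 - a4 * c3) - (a2 * c3 - a3 * c2)) * hb +
      (-(a3 * b4 - a4 * b3) + (a2 * b3 - a3 * b2)) * hc +
      (a2 * (b3 * c4 - b4 * c3) - a3 * (b2 * c4 - b4 * c2) + a4 * (b2 * c3 - b3 * c2)) * hYV
  have eY : Y * (det3 a1 a2 a3 b1 b2 b3 c1 c2 c3 - det3 a1 a3 a4 b1 b3 b4 c1 c3 c4) =
      -2 * det3 a1 a3 a4 b1 b3 b4 c1 c3 c4 := by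
    unfold det3
    linear_combination (-(b1 * c3 - b3 * c1)) * ha + (a1 * c3 - a3 * c1) * hb -
      (a1 * b3 - a3 * b1) * hc -
      (a1 * (b3 * c4 - b4 * c3) - a3 * (b1 * c4 - b4 * c1) + a4 * (b1 * c3 - b3 * c1)) * hYV
  have eU : U * (det3 a1 a2 a3 b1 b2 b3 c1 c2 c3 - det3 a1 a3 a4 b1 b3 b4 c1 c3 c4) =
      2 * det3 a1 a2 a4 b1 b2 b4 c1 c2 c4 := by
    unfold det3
    linear_combination ((b1 * c4 - b4 * c1) + (b1 * c2 - b2 * c1)) * ha -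
      ((a1 * c4 - a4 * c1) + (a1 * c2 - a2 * c1)) * hb +
      ((a1 * b4 - a4 * b1) + (a1 * b2 - a2 * b1)) * hc +
      (a1 * (b2 * c4 - b4 * c2) - a2 * (b1 * c4 - b4 * c1) + a4 * (b1 * c2 - b2 * c1)) * hYV
  refine ⟨?_, ?_, ?_⟩
  · rw [(eq_div_iff hd).mpr eX]
    exact div_mem (mul_mem h2L (det3_mem L h2 h3 h4 k2 k3 k4 l2 l3 l4)) hdL
  · rw [(eq_div_iff hd).mpr eY]
    exact div_mem (mul_mem (neg_mem h2L) (det3_mem L h1 h3 h4 k1 k3 k4 l1 l3 l4)) hdL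
  · rw [(eq_div_iff hd).mpr eU]
    exact div_mem (mul_mem h2L (det3_mem L h1 h2 h4 k1 k2 k4 l1 l2 l4)) hdL

end cramer

section rows

variable {K : Type} [Field K] [Algebra ℂ K] (L : IntermediateField ℂ K) {S u ρ o1 o2 : K}

theorem row1_mem (f1 : K → K → K → K → K → K) (h : f1 = fX ∨ f1 = fY ∨ f1 = gX ∨ f1 = gY)
    (hS : S ∈ L) (hu : u ∈ L) (h1 : o1 ∈ L) (h2 : o2 ∈ L) : f1 S u 1 o1 o2 ∈ L := by
  have h0 := one_mem L
  rcases h with rfl | rfl | rfl | rfl <;> simp only [fX, fY, gX, gY] <;>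
    exact add_mem (mul_mem (add_mem (mul_mem (hor_mem L _ hS) h0) (mul_mem (hor_mem L _ hS) hu)) h1)
      (mul_mem (add_mem (mul_mem (hor_mem L _ hS) h0) (mul_mem (hor_mem L _ hS) hu)) h2)

theorem row2_mem (hS : S ∈ L) (hu : u ∈ L) (hρ : ρ ∈ L) :
    fU S u 1 ρ 1 ∈ L ∧ gU S u 1 ρ 1 ∈ L ∧ fV S u 1 ρ 1 ∈ L ∧ gV S u 1 ρ 1 ∈ L := by
  have h0 := one_mem L
  refine ⟨?_, ?_, ?_, ?_⟩
  · exact add_mem (mul_mem (add_mem (mul_mem (hor_mem L _ hS) h0) (mul_mem (hor_mem L _ hS) hu)) hρ)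
      (mul_mem (add_mem (mul_mem (hor_mem L _ hS) h0) (mul_mem (hor_mem L _ hS) hu)) h0)
  · exact add_mem (mul_mem (add_mem (mul_mem (hor_mem L _ hS) h0) (mul_mem (hor_mem L _ hS) hu)) hρ)
      (mul_mem (add_mem (mul_mem (hor_mem L _ hS) h0) (mul_mem (hor_mem L _ hS) hu)) h0)
  · exact add_mem (mul_mem (add_mem (mul_mem (hor_mem L _ hS) h0) (mul_mem (hor_mem L _ hS) hu)) hρ)
      (mul_mem (mul_mem (hor_mem L _ hS) h0) h0)
  · exact add_mem (mul_mem (add_mem (mul_mem (hor_mem L _ hS) h0) (mul_mem (hor_mem L _ hS) hu)) hρ)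
      (mul_mem (mul_mem (hor_mem L _ hS) hu) h0)

theorem row3_mem (f1 : K → K → K → K → K → K) (h : f1 = hX ∨ f1 = hY ∨ f1 = hU ∨ f1 = hV)
    (hS : S ∈ L) (hu : u ∈ L) (h1 : o1 ∈ L) (h2 : o2 ∈ L) : f1 S u 1 o1 o2 ∈ L := by
  have h0 := one_mem L
  have key : ∀ l0 l1 l2 l3 l4, hor l0 S * 1 ^ 4 + hor l1 S * (u * 1 ^ 3) +
      hor l2 S * (u ^ 2 * 1 ^ 2) + hor l3 S * (u ^ 3 * 1) + hor l4 S * u ^ 4 ∈ L :=
    fun l0 l1 l2 l3 l4 => add_mem (add_mem (add_mem (add_mem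
      (mul_mem (hor_mem L _ hS) (pow_mem h0 _))
      (mul_mem (hor_mem L _ hS) (mul_mem hu (pow_mem h0 _))))
      (mul_mem (hor_mem L _ hS) (mul_mem (pow_mem hu _) (pow_mem h0 _))))
      (mul_mem (hor_mem L _ hS) (mul_mem (pow_mem hu _) h0)))
      (mul_mem (hor_mem L _ hS) (pow_mem hu _))
  rcases h with rfl | rfl | rfl | rfl <;> simp only [hX, hY, hU, hV] <;>
    exact add_mem (mul_mem (key _ _ _ _ _) h1) (mul_mem (key _ _ _ _ _) h2)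

end rows

section scale

variable {K : Type} [CommRing K] (S u N c p q : K)

theorem fX_sc : fX S (u * N) N (p * c) (q * c) = N * c * fX S u 1 p q := by unfold fX; ring
theorem fY_sc : fY S (u * N) N (p * c) (q * c) = N * c * fY S u 1 p q := by unfold fY; ring
theorem fU_sc : fU S (u * N) N (p * c) c = N * c * fU S u 1 p 1 := by unfold fU; ring
theorem fV_sc : fV S (u * N) N (p * c) c = N * c * fV S u 1 p 1 := by unfold fV; ring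
theorem gX_sc : gX S (u * N) N (p * c) (q * c) = N * c * gX S u 1 p q := by unfold gX; ring
theorem gY_sc : gY S (u * N) N (p * c) (q * c) = N * c * gY S u 1 p q := by unfold gY; ring
theorem gU_sc : gU S (u * N) N (p * c) c = N * c * gU S u 1 p 1 := by unfold gU; ring
theorem gV_sc : gV S (u * N) N (p * c) c = N * c * gV S u 1 p 1 := by unfold gV; ring
theorem hX_sc : hX S (u * N) N (p * c) c = N ^ 4 * c * hX S u 1 p 1 := by unfold hX; ring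
theorem hY_sc : hY S (u * N) N (p * c) c = N ^ 4 * c * hY S u 1 p 1 := by unfold hY; ring
theorem hU_sc : hU S (u * N) N (p * c) (q * c) = N ^ 4 * c * hU S u 1 p q := by unfold hU; ring
theorem hV_sc : hV S (u * N) N (p * c) (q * c) = N ^ 4 * c * hV S u 1 p q := by unfold hV; ring

theorem dW_sc (ρ : K) : dW S (u * N) N (ρ * c) c (p * c) (q * c) =
    N * c * (N * c) * (N ^ 4 * c) * dW S u 1 ρ 1 p q := by
  unfold dW det3
  rw [fX_sc, fY_sc, fU_sc, fV_sc, gX_sc, gY_sc, gU_sc, gV_sc, hX_sc, hY_sc, hU_sc, hV_sc]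
  ring

end scale

end Vale.Agent.P297.H572
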