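import Vale.Agent.P297.H572.Asm2

/-! The quintic side: from the coordinates `x, y, z` to `u, ρ, t, θ`. -/

set_option linter.unusedSimpArgs false
set_option linter.unusedSectionVars false

namespace Vale.Agent.P297.H572

open Vale.Agent.P297 Vale.Agent.P297.H424 Vale.Agent.P297.H839 IntermediateField

section alg

variable {K : Type} [Field K] [Algebra ℂ K]

/-- the elements that are algebraic over a subfield -/
theorem alg_add {F : IntermediateField ℂ K} {a b : K} (ha : IsAlgebraic F a)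
    (hb : IsAlgebraic F b) : IsAlgebraic F (a + b) := ha.add hb

theorem alg_quad [CharZero K] {F : IntermediateField ℂ K} {t f0 f1 f2 : K} (h0 : f0 ∈ F)
    (h1 : f1 ∈ F) (h2 : f2 ∈ F) (hf : f0 ≠ 0) (h : f0 * t ^ 2 + f1 * t + f2 = 0) :
    IsAlgebraic F t := by
  have a0 := isAlgebraic_mem F f0 h0
  have a1 := isAlgebraic_mem F f1 h1
  have a2 := isAlgebraic_mem F f2 h2
  have h2F : IsAlgebraic F (2 : K) := isAlgebraic_mem F 2 (ofNat_mem F 2)
  have h4F : IsAlgebraic F (4 : K) := isAlgebraic_mem F 4 (ofNat_mem F 4)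
  have hT : IsAlgebraic F ((2 * f0 * t + f1) ^ 2) := by
    have e : (2 * f0 * t + f1) ^ 2 = f1 ^ 2 - 4 * f0 * f2 := by linear_combination 4 * f0 * h
    rw [e]
    exact isAlgebraic_mem F _ (sub_mem (pow_mem h1 2) (mul_mem (mul_mem (ofNat_mem F 4) h0) h2))
  have hT2 : IsAlgebraic F (2 * f0 * t + f1) := IsAlgebraic.of_pow two_pos hT
  have e : t = (2 * f0 * t + f1 - f1) * (2 * f0)⁻¹ := by field_simp; ring
  rw [e]
  exact (hT2.sub a1).mul (h2F.mul a0).inv

/-- Independence of `u` and `ρ`. -/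
theorem indep_uρ {x y : K} (hxy : AlgebraicIndependent ℂ ![x, y])
    (u ρ t θ : K) (htop : IntermediateField.adjoin ℂ {u, ρ, t, θ} = ⊤)
    (f0 f1 f2 A b0 b1 b2 : K) (h0 : f0 ∈ IntermediateField.adjoin ℂ {u, ρ})
    (h1 : f1 ∈ IntermediateField.adjoin ℂ {u, ρ}) (h2 : f2 ∈ IntermediateField.adjoin ℂ {u, ρ})
    (hA : A ∈ IntermediateField.adjoin ℂ {u, ρ}) (hb0 : b0 ∈ IntermediateField.adjoin ℂ {u, ρ})
    (hb1 : b1 ∈ IntermediateField.adjoin ℂ {u, ρ}) (hb2 : b2 ∈ IntermediateField.adjoin ℂ {u, ρ})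
    (hf : f0 ≠ 0) (h : f0 * t ^ 2 + f1 * t + f2 = 0) (hb : b0 * t ^ 2 + b1 * t + b2 ≠ 0)
    (hθ : A + θ ^ 2 * (b0 * t ^ 2 + b1 * t + b2) = 0) : AlgebraicIndependent ℂ ![u, ρ] := by
  have : CharZero K := charZero_of_injective_algebraMap (algebraMap ℂ K).injective
  obtain ⟨F, hF⟩ : ∃ F, F = IntermediateField.adjoin ℂ {u, ρ} := ⟨_, rfl⟩
  rw [← hF] at h0 h1 h2 hA hb0 hb1 hb2
  have ht : IsAlgebraic F t := alg_quad h0 h1 h2 hf h
  have hB : IsAlgebraic F (b0 * t ^ 2 + b1 * t + b2) :=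
    ((((isAlgebraic_mem F b0 hb0).mul (ht.pow 2)).add ((isAlgebraic_mem F b1 hb1).mul ht)).add
      (isAlgebraic_mem F b2 hb2))
  have hθ2 : IsAlgebraic F θ := by
    refine IsAlgebraic.of_pow two_pos ?_
    have e : θ ^ 2 = (-A) * (b0 * t ^ 2 + b1 * t + b2)⁻¹ := by
      rw [eq_mul_inv_iff_mul_eq₀ hb]
      linear_combination hθ
    rw [e]
    exact (isAlgebraic_mem F _ (neg_mem hA)).mul hB.inv
  have hall : ∀ a : K, IsAlgebraic F a := by
    intro a
    have h3 : IntermediateField.adjoin ℂ {u, ρ, t, θ} ≤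
        (algebraicClosure F K).restrictScalars ℂ := by
      rw [IntermediateField.adjoin_le_iff]
      have huF : u ∈ F := by rw [hF]; exact IntermediateField.subset_adjoin _ _ (by simp)
      have hρF : ρ ∈ F := by rw [hF]; exact IntermediateField.subset_adjoin _ _ (by simp)
      rintro b (rfl | rfl | rfl | hb3)
      · exact mem_algebraicClosure_iff.2 (isAlgebraic_mem F _ huF)
      · exact mem_algebraicClosure_iff.2 (isAlgebraic_mem F _ hρF)
      · exact mem_algebraicClosure_iff.2 ht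
      · rw [Set.mem_singleton_iff.1 hb3]
        exact mem_algebraicClosure_iff.2 hθ2
    rw [htop] at h3
    exact mem_algebraicClosure_iff.1 (h3 (IntermediateField.mem_top (x := a)))
  apply indep_of_algebraic hxy
  rw [range_pair, ← hF]
  exact fun i => hall _

end alg

/-- **The quintic side.** -/
theorem quintic_side (s : ℂ) (hB2 : hor lB2 s ≠ 0) (hw2 : hor lw2 s ≠ 0) {K : Type} [Field K]
    [Algebra ℂ K] (x y z : K) (hxy : AlgebraicIndependent ℂ ![x, y])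
    (htop : IntermediateField.adjoin ℂ {x, y, z} = ⊤) (hF : vF (algebraMap ℂ K s) x y z = 0)
    (hnz : nth (rg [algebraMap ℂ K s, x, y, z])
        (run (rg [algebraMap ℂ K s, x, y, z]) [] prog) 0 ≠ 0) :
    ∃ u ρ t θ : K, AlgebraicIndependent ℂ ![u, ρ] ∧
      IntermediateField.adjoin ℂ {u, ρ, t, θ} = ⊤ ∧
      hv (d := 2) (D s).a u ρ 1 +
        θ ^ 2 * ((D s).bb u 0 * t ^ 2 + (D s).bb u 1 * t + (D s).bb u 2) = 0 ∧
      hv (d := 3) (D s).c u ρ 1 +
        θ ^ 2 * ((D s).ee u ρ 0 * t ^ 2 + (D s).ee u ρ 1 * t + (D s).ee u ρ 2) = 0 := by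
  have : CharZero K := charZero_of_injective_algebraMap (algebraMap ℂ K).injective
  obtain ⟨S, hS⟩ : ∃ S, S = algebraMap ℂ K s := ⟨_, rfl⟩
  rw [nth_nz] at hnz
  have rQ := relQ (algebraMap ℂ K s) x y z hF
  have rC := relC (algebraMap ℂ K s) x y z hF
  have r1 := rel1 (algebraMap ℂ K s) x y z
  have r2 := rel2 (algebraMap ℂ K s) x y z
  have r3 := rel3 (algebraMap ℂ K s) x y z
  generalize vM (algebraMap ℂ K s) x y z = M at hnz rQ rC r1 r2 r3
  generalize vN (algebraMap ℂ K s) x y z = N at hnz rQ rC r1 r2 r3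
  generalize vR1 (algebraMap ℂ K s) x y z = R1 at hnz rQ rC r1 r2 r3
  generalize vR2 (algebraMap ℂ K s) x y z = R2 at hnz rQ rC r1 r2 r3
  generalize vO1 (algebraMap ℂ K s) x y z = O1 at hnz rQ rC r1 r2 r3
  generalize vO2 (algebraMap ℂ K s) x y z = O2 at hnz rQ rC r1 r2 r3
  rw [mul_ne_zero_iff, mul_ne_zero_iff, mul_ne_zero_iff, mul_ne_zero_iff, mul_ne_zero_iff] at hnz
  obtain ⟨⟨⟨⟨⟨hN, hR2⟩, hO2⟩, hnB⟩, hff⟩, hdW⟩ := hnz
  obtain ⟨u, hu⟩ : ∃ u, M = u * N := ⟨M / N, by field_simp⟩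
  obtain ⟨ρ, hρ⟩ : ∃ ρ, R1 = ρ * R2 := ⟨R1 / R2, by field_simp⟩
  obtain ⟨t, ht⟩ : ∃ t, O1 = t * O2 := ⟨O1 / O2, by field_simp⟩
  obtain ⟨τ, hτ⟩ : ∃ τ, O2 = τ * R2 := ⟨O2 / R2, by field_simp⟩
  obtain ⟨ω, hω⟩ := IsAlgClosed.exists_pow_nat_eq (hor lw2 s / hor lB2 s) two_pos
  have hω0 : ω ≠ 0 := by
    rintro rfl
    rw [zero_pow two_ne_zero] at hω
    exact (div_ne_zero hw2 hB2) hω.symm
  have hB2S : hor lB2 (algebraMap ℂ K s) ≠ 0 := by
    rw [← map_hor (algebraMap ℂ K)]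
    exact (map_ne_zero _).2 hB2
  have hωS : hor lB2 (algebraMap ℂ K s) * algebraMap ℂ K ω ^ 2 = hor lw2 (algebraMap ℂ K s) := by
    rw [← map_pow, hω, ← map_hor (algebraMap ℂ K), ← map_hor (algebraMap ℂ K), ← map_mul]
    congr 1
    field_simp
  subst hu hρ ht
  rw [nA_eq, nB_eq] at rQ
  rw [nC_eq, nE_eq] at rC
  rw [nC_eq, nb0_eq, nA_eq, ne0_eq] at hff
  rw [nB_eq] at hnB
  have hτ0 : τ ≠ 0 := by
    rintro rfl
    apply hO2
    rw [hτ, zero_mul]
  -- the two relations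
  have eA : hv (d := 2) (D s).a u ρ 1 + (algebraMap ℂ K ω * τ) ^ 2 *
      ((D s).bb u 0 * t ^ 2 + (D s).bb u 1 * t + (D s).bb u 2) = 0 := by
    have h1 : hor lB2 (algebraMap ℂ K s) * N ^ 3 * R2 ^ 2 ≠ 0 :=
      mul_ne_zero (mul_ne_zero hB2S (pow_ne_zero _ hN)) (pow_ne_zero _ hR2)
    apply mul_left_cancel₀ h1
    rw [mul_zero, ← rQ, hτ]
    linear_combination (N ^ 3 * R2 ^ 2 * τ ^ 2 *
      ((D s).bb u 0 * t ^ 2 + (D s).bb u 1 * t + (D s).bb u 2)) * hωS
  have eC : hv (d := 3) (D s).c u ρ 1 + (algebraMap ℂ K ω * τ) ^ 2 *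
      ((D s).ee u ρ 0 * t ^ 2 + (D s).ee u ρ 1 * t + (D s).ee u ρ 2) = 0 := by
    have h1 : hor lB2 (algebraMap ℂ K s) * N ^ 2 * R2 ^ 3 ≠ 0 :=
      mul_ne_zero (mul_ne_zero hB2S (pow_ne_zero _ hN)) (pow_ne_zero _ hR2)
    apply mul_left_cancel₀ h1
    rw [mul_zero, ← rC, hτ]
    linear_combination (N ^ 2 * R2 ^ 3 * τ ^ 2 *
      ((D s).ee u ρ 0 * t ^ 2 + (D s).ee u ρ 1 * t + (D s).ee u ρ 2)) * hωS
  -- generation
  have hgen : IntermediateField.adjoin ℂ {u, ρ, t, algebraMap ℂ K ω * τ} = ⊤ := by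
    obtain ⟨L, hL⟩ : ∃ L, L = IntermediateField.adjoin ℂ {u, ρ, t, algebraMap ℂ K ω * τ} :=
      ⟨_, rfl⟩
    have huL : u ∈ L := by rw [hL]; exact IntermediateField.subset_adjoin _ _ (by simp)
    have hρL : ρ ∈ L := by rw [hL]; exact IntermediateField.subset_adjoin _ _ (by simp)
    have htL : t ∈ L := by rw [hL]; exact IntermediateField.subset_adjoin _ _ (by simp)
    have hθL : algebraMap ℂ K ω * τ ∈ L := by
      rw [hL]; exact IntermediateField.subset_adjoin _ _ (by simp)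
    have hωK : algebraMap ℂ K ω ≠ 0 := (map_ne_zero _).2 hω0
    have hτL : τ ∈ L := by
      have e : τ = (algebraMap ℂ K ω * τ) / algebraMap ℂ K ω := by field_simp
      rw [e]
      exact div_mem hθL (L.algebraMap_mem _)
    have hSL : algebraMap ℂ K s ∈ L := L.algebraMap_mem _
    have h1L := one_mem L
    have htτL : t * τ ∈ L := mul_mem htL hτL
    rw [← hL, eq_top_iff, ← htop, IntermediateField.adjoin_le_iff]
    have hc1 : N * R2 ≠ 0 := mul_ne_zero hN hR2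
    have hc3 : N ^ 4 * R2 ≠ 0 := mul_ne_zero (pow_ne_zero _ hN) hR2
    rw [hτ, ← mul_assoc] at r1 r2 r3 hdW
    rw [fX_sc, fY_sc, fU_sc, fV_sc] at r1
    rw [gX_sc, gY_sc, gU_sc, gV_sc] at r2
    rw [hX_sc, hY_sc, hU_sc, hV_sc] at r3
    rw [dW_sc] at hdW
    have hd := right_ne_zero_of_mul hdW
    obtain ⟨e1, e2, e3, e4⟩ := row2_mem L hSL huL hρL
    obtain ⟨kX, kY, kU⟩ := cramer L (X := x + z) (Y := y + 1) (U := x - z) (V := y - 1)
      (a1 := fX (algebraMap ℂ K s) u 1 (t * τ) τ) (a2 := fY (algebraMap ℂ K s) u 1 (t * τ) τ)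
      (a3 := fU (algebraMap ℂ K s) u 1 ρ 1) (a4 := fV (algebraMap ℂ K s) u 1 ρ 1)
      (b1 := gX (algebraMap ℂ K s) u 1 (t * τ) τ) (b2 := gY (algebraMap ℂ K s) u 1 (t * τ) τ)
      (b3 := gU (algebraMap ℂ K s) u 1 ρ 1) (b4 := gV (algebraMap ℂ K s) u 1 ρ 1)
      (c1 := hX (algebraMap ℂ K s) u 1 ρ 1) (c2 := hY (algebraMap ℂ K s) u 1 ρ 1)
      (c3 := hU (algebraMap ℂ K s) u 1 (t * τ) τ) (c4 := hV (algebraMap ℂ K s) u 1 (t * τ) τ)
      (by
        apply mul_left_cancel₀ hc1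
        linear_combination r1)
      (by
        apply mul_left_cancel₀ hc1
        linear_combination r2)
      (by
        apply mul_left_cancel₀ hc3
        linear_combination r3)
      (by ring) hd
      (row1_mem L _ (by simp) hSL huL htτL hτL) (row1_mem L _ (by simp) hSL huL htτL hτL) e1 e3
      (row1_mem L _ (by simp) hSL huL htτL hτL) (row1_mem L _ (by simp) hSL huL htτL hτL) e2 e4
      (row3_mem L _ (by simp) hSL huL hρL h1L) (row3_mem L _ (by simp) hSL huL hρL h1L)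
      (row3_mem L _ (by simp) hSL huL htτL hτL) (row3_mem L _ (by simp) hSL huL htτL hτL)
    have hx : x ∈ L := by
      have e : x = ((x + z) + (x - z)) / 2 := by ring
      rw [e]
      exact div_mem (add_mem kX kU) (ofNat_mem L 2)
    have hz : z ∈ L := by
      have e : z = ((x + z) - (x - z)) / 2 := by ring
      rw [e]
      exact div_mem (sub_mem kX kU) (ofNat_mem L 2)
    have hy : y ∈ L := by
      have e : y = (y + 1) - 1 := by ring
      rw [e]
      exact sub_mem kY h1L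
    rintro a (rfl | rfl | ha)
    · exact hx
    · exact hy
    · rw [Set.mem_singleton_iff.1 ha]; exact hz
  refine ⟨u, ρ, t, algebraMap ℂ K ω * τ, ?_, hgen, eA, eC⟩
  -- independence
  obtain ⟨F, hFd⟩ : ∃ F, F = IntermediateField.adjoin ℂ {u, ρ} := ⟨_, rfl⟩
  have huF : u ∈ F := by rw [hFd]; exact IntermediateField.subset_adjoin _ _ (by simp)
  have hρF : ρ ∈ F := by rw [hFd]; exact IntermediateField.subset_adjoin _ _ (by simp)
  have hmatF : ∀ i j, (D s).mat u i j ∈ F := fun i j => by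
    unfold Net.mat
    exact add_mem (F.algebraMap_mem _) (mul_mem huF (F.algebraMap_mem _))
  have hbbF : ∀ i, (D s).bb u i ∈ F := fun i => by
    unfold Net.bb
    exact sub_mem (add_mem (hmatF _ _) (mul_mem huF (hmatF _ _)))
      (mul_mem (pow_mem huF 2) (hmatF _ _))
  have heeF : ∀ i, (D s).ee u ρ i ∈ F := fun i => by
    unfold Net.ee
    exact sub_mem (mul_mem hρF (hmatF _ _)) (mul_mem huF (hmatF _ _))
  have hcF : hv (d := 3) (D s).c u ρ 1 ∈ F := hv_mem _ F huF hρF (one_mem F)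
  have haF : hv (d := 2) (D s).a u ρ 1 ∈ F := hv_mem _ F huF hρF (one_mem F)
  have hffF : ∀ i, (D s).ff u ρ i ∈ F := fun i => by
    unfold Data.ff
    exact sub_mem (mul_mem hcF (hbbF i)) (mul_mem haF (heeF i))
  rw [hFd] at hffF haF hbbF
  refine indep_uρ hxy u ρ t (algebraMap ℂ K ω * τ) hgen ((D s).ff u ρ 0)
    ((D s).ff u ρ 1) ((D s).ff u ρ 2) (hv (d := 2) (D s).a u ρ 1) ((D s).bb u 0) ((D s).bb u 1)
    ((D s).bb u 2) (hffF 0) (hffF 1) (hffF 2) haF (hbbF 0) (hbbF 1) (hbbF 2) ?_ ?_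
    (right_ne_zero_of_mul hnB) eA
  · intro h
    apply hff
    unfold Data.ff at h
    linear_combination (N ^ 5 * R2 ^ 3) * h
  · unfold Data.ff
    linear_combination ((D s).bb u 0 * t ^ 2 + (D s).bb u 1 * t + (D s).bb u 2) * eC -
      ((D s).ee u ρ 0 * t ^ 2 + (D s).ee u ρ 1 * t + (D s).ee u ρ 2) * eA

end Vale.Agent.P297.H572
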