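import Vale.Agent.P297.H572.FamDefs
import Vale.Agent.P297.H600.CGDefs
import Mathlib.Tactic.LinearCombination

/-! The Craighero-Gattazzo quintic as a member of the family. -/

namespace Vale.Agent.P297.H572

open Vale.Agent.P297.H600

theorem fam_cg {K : Type*} [CommRing K] (S x y z w : K) (h : S ^ 3 - S ^ 2 + 1 = 0) :
    famForm S x y z w = (S ^ 3 * (1 - S ^ 2)) ^ 2 * cgForm S x y z w := by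
  have hf : ∀ a b c p q r t : K, ∀ α β γ : K, α = S * a → β = S * b → γ = S * c →
      S ^ 2 * (x ^ 3 * (a * y + b * z + c * w) ^ 2 + y ^ 3 * (a * z + b * w + c * x) ^ 2 +
        z ^ 3 * (a * w + b * x + c * y) ^ 2 + w ^ 3 * (a * x + b * y + c * z) ^ 2) +
      p * (x ^ 2 * y ^ 2 * z + y ^ 2 * z ^ 2 * w + z ^ 2 * w ^ 2 * x + w ^ 2 * x ^ 2 * y) -
      q * (x ^ 2 * y ^ 2 * w + y ^ 2 * z ^ 2 * x + z ^ 2 * w ^ 2 * y + w ^ 2 * x ^ 2 * z) +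
      r * (x ^ 2 * z ^ 2 * y + y ^ 2 * w ^ 2 * z + z ^ 2 * x ^ 2 * w + w ^ 2 * y ^ 2 * x) +
      t * (x ^ 2 * y * z * w + y ^ 2 * z * w * x + z ^ 2 * w * x * y + w ^ 2 * x * y * z) =
      (x ^ 3 * (α * y + β * z + γ * w) ^ 2 + y ^ 3 * (α * z + β * w + γ * x) ^ 2 +
        z ^ 3 * (α * w + β * x + γ * y) ^ 2 + w ^ 3 * (α * x + β * y + γ * z) ^ 2) +
      p * (x ^ 2 * y ^ 2 * z + y ^ 2 * z ^ 2 * w + z ^ 2 * w ^ 2 * x + w ^ 2 * x ^ 2 * y) -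
      q * (x ^ 2 * y ^ 2 * w + y ^ 2 * z ^ 2 * x + z ^ 2 * w ^ 2 * y + w ^ 2 * x ^ 2 * z) +
      r * (x ^ 2 * z ^ 2 * y + y ^ 2 * w ^ 2 * z + z ^ 2 * x ^ 2 * w + w ^ 2 * y ^ 2 * x) +
      t * (x ^ 2 * y * z * w + y ^ 2 * z * w * x + z ^ 2 * w * x * y + w ^ 2 * x * y * z) := by
    rintro a b c p q r t α β γ rfl rfl rfl
    ring
  obtain ⟨β, hβ⟩ : ∃ β, β = S ^ 3 * (1 - S ^ 2) := ⟨_, rfl⟩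
  unfold famForm
  rw [hf _ _ _ _ _ _ _ (β * (1 - S - 2 * S ^ 2)) β (β * (S ^ 2 - 2 * S - 1))
    (by rw [hβ]; linear_combination (S ^ 2 + 3 * S ^ 3 + S ^ 4) * h)
    (by rw [hβ]; ring)
    (by rw [hβ]; linear_combination (-(S ^ 3) - 2 * S ^ 4) * h)]
  have hP : 3 * S ^ 14 - 2 * S ^ 13 + S ^ 12 + 6 * S ^ 11 + 6 * S ^ 10 + 10 * S ^ 9 + 8 * S ^ 8 +
      S ^ 7 - 5 * S ^ 6 - 11 * S ^ 5 - 10 * S ^ 4 - 7 * S ^ 3 - 4 * S ^ 2 - S =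
      β ^ 2 * (2 - 10 * S - 9 * S ^ 2) := by
    rw [hβ]
    linear_combination (-S - 4 * S ^ 2 - 8 * S ^ 3 - 13 * S ^ 4 - 15 * S ^ 5 - 12 * S ^ 6 +
      9 * S ^ 7 + 24 * S ^ 8 + 11 * S ^ 9 + S ^ 10 + 3 * S ^ 11) * h
  have hQ : S ^ 14 + 2 * S ^ 13 - 5 * S ^ 12 + S ^ 10 - 5 * S ^ 9 + 5 * S ^ 8 + 9 * S ^ 7 +
      3 * S ^ 6 + 7 * S ^ 5 + 5 * S ^ 4 - S ^ 3 - S ^ 2 = -(β ^ 2 * (9 - 8 * S ^ 2)) := by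
    rw [hβ]
    linear_combination (-(S ^ 2 + S ^ 3 - 4 * S ^ 4 - 7 * S ^ 5 - 17 * S ^ 6 - 12 * S ^ 7 +
      11 * S ^ 8 + 10 * S ^ 9 - 3 * S ^ 10 - S ^ 11)) * h
  have hR : 4 * S ^ 13 - 4 * S ^ 11 + 3 * S ^ 10 - S ^ 9 - 6 * S ^ 8 + 2 * S ^ 7 + S ^ 6 -
      2 * S ^ 5 + 4 * S ^ 4 + 2 * S ^ 3 - 2 * S ^ 2 - S = β ^ 2 * (3 + S + 4 * S ^ 2) := by
    rw [hβ]
    linear_combination (-S - 2 * S ^ 2 + S ^ 3 + 3 * S ^ 4 + S ^ 5 - S ^ 7 - 5 * S ^ 8 +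
      4 * S ^ 10) * h
  have hT : 2 * S ^ 14 - 8 * S ^ 13 + 2 * S ^ 12 + 2 * S ^ 11 - 11 * S ^ 10 + 2 * S ^ 9 +
      5 * S ^ 8 - 2 * S ^ 7 + 8 * S ^ 6 + 10 * S ^ 5 + 8 * S ^ 4 + 8 * S ^ 3 + 7 * S ^ 2 + 4 * S +
      1 = β ^ 2 * (1 - 6 * S + 9 * S ^ 2) := by
    rw [hβ]
    linear_combination (1 + 4 * S + 8 * S ^ 2 + 11 * S ^ 3 + 12 * S ^ 4 + 13 * S ^ 5 + 8 * S ^ 6 +
      5 * S ^ 7 - 7 * S ^ 8 - 13 * S ^ 9 - 6 * S ^ 10 + 2 * S ^ 11) * h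
  rw [hP, hQ, hR, hT, ← hβ]
  unfold cgForm
  ring

end Vale.Agent.P297.H572
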