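import Vale.Agent.P297.H572.Tab
import Vale.Agent.P297.H424.Main

/-! The data of the family; the discriminant and the twin identities as programs. -/

namespace Vale.Agent.P297.H572

open Vale.Agent.P297.H424

def le0 : List ℤ := [1, 2, 1, 4, 4, 0, 4]
def le2 : List ℤ := [-1, -4, -6, -4, -1, 0, 0, 0, -4]
def b00 : List ℤ := [0, 0, 0, 0, -64, -768, -3712, -8960, -11072, -9216, -15104, -14848, 13952,
  5120, -32000, 49664, 43648, -118784, 103424, 141312, -325952, 215296, 309632, -719616, 482752,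
  452608, -1271040, 1032704, 302848, -1679872, 1779200, -388096, -1412352, 2135040, -1304576,
  -321536, 1459200, -1474560, 663552, 196608, -602112, 540672, -294912, 98304, -16384]
def b02 : List ℤ := [0, 0, 16, 128, 416, 1088, 3344, 5952, 832, -4096, 12192, 1920, -37824, 38016,
  41696, -146048, 99328, 164096, -453680, 287872, 441248, -1150400, 833488, 752448, -2377280,
  2134272, 559232, -3753600, 4324736, -975104, -3991488, 6367744, -3815424, -1809408, 6073344,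
  -5834752, 1757184, 2715648, -4536320, 3284992, -737280, -1130496, 1589248, -1114112, 491520,
  -131072, 16384]
def b04 : List ℤ := [0, 0, -32, -192, -224, 384, -256, -2304, 3072, 5120, -12992, 6272, 29376,
  -55808, 6144, 114432, -179200, 17664, 322144, -484544, 115872, 642176, -1065984, 500736, 826112,
  -1776896, 1312128, 400128, -1989504, 2113536, -690176, -1087488, 1901056, -1404928, 276480,
  585728, -796672, 557056, -245760, 65536, -8192]
def b06 : List ℤ := [0, 0, 16, 64, -64, -384, 384, 1024, -2304, -384, 7072, -7680, -7040, 25984,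
  -19904, -23680, 67840, -50816, -40560, 131008, -116800, -19968, 171456, -198528, 68096, 113152,
  -202944, 151040, -24064, -75776, 99840, -69632, 30720, -8192, 1024]
def b11 : List ℤ := [0, 0, 32, 320, 1120, 960, -3424, -8128, -992, 10176, 768, -16512, -24128,
  -38784, -22848, 20352, -33600, -71040, 75040, -29120, -290336, 303808, 251680, -997568, 822944,
  958656, -2914112, 2269440, 2123264, -6569728, 5678464, 2160896, -10953088, 11826432, -1494784,
  -12320768, 17538048, -8976384, -6502400, 16556032, -14114816, 2883584, 7454720, -10289152,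
  6373376, -753664, -2490368, 2686976, -1474560, 458752, -65536]
def b13 : List ℤ := [0, 0, -64, -512, -1152, 896, 6208, 2944, -10112, -3584, 10368, -7680, -256,
  27904, -16512, -32512, 19712, 32768, -56640, -69120, 259968, -151168, -404672, 912768, -537472,
  -865792, 2192640, -1793536, -748032, 3576320, -3938048, 965120, 3239424, -5328896, 3619840,
  423936, -3639296, 4022272, -2084864, -237568, 1449984, -1376256, 737280, -229376, 32768]
def b15 : List ℤ := [0, 0, 32, 192, 160, -960, -1344, 2176, 2048, -4224, 2880, 5376, -13504, 5888,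
  11776, -26752, 23424, 4224, -41440, 66880, -54624, -13376, 120640, -189440, 122752, 82944,
  -295552, 338176, -139648, -176896, 381184, -339968, 118784, 106496, -206848, 176128, -92160,
  28672, -4096]
def b20 : List ℤ := [0, 0, 16, 192, 960, 2624, 4576, 6208, 6784, 4416, 8176, 26624, 21184, -5632,
  19008, -22016, -51200, 277888, 146480, -442432, 420672, 312384, -1276448, 1412672, 1080960,
  -3573184, 2836880, 2230400, -6987200, 6115712, 2789120, -11963520, 11178752, 1860352, -15528896,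
  16894720, -2533376, -15349248, 20595968, -8085504, -10133504, 18530304, -11585536, -2580480,
  11747328, -10141696, 2203648, 4227072, -5308416, 2686976, 212992, -1376256, 1048576, -393216,
  65536]
def b22 : List ℤ := [0, 0, -32, -320, -1248, -2432, -2912, -2368, 4704, 17152, -4416, -45440,
  7232, 44544, -40000, 96384, 78400, -373248, 174432, 417216, -806496, 494720, 720160, -1968192,
  1421792, 1189120, -3487744, 2929920, 612608, -4498688, 5034112, -1109760, -3873920, 5531136,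
  -2899456, -1316864, 3617792, -2672640, 219136, 1130496, -684032, -319488, 647168, -163840,
  -507904, 753664, -524288, 196608, -32768]
def b24 : List ℤ := [0, 0, 16, 128, 352, 384, 272, -512, -5312, -5760, 14176, 13184, -27712, 8704,
  35040, -83456, 35328, 133632, -228784, 54912, 286816, -459136, 199632, 391424, -791104, 515712,
  276800, -906880, 856960, -192000, -541632, 801536, -521216, 68096, 208640, -249856, 182272,
  -126976, 113664, -102400, 65536, -24576, 4096]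
def tA00 : List ℤ := [-1, -2, 0, -4, -5, 6, -6, 0, 12, -8, 8]
def tA02 : List ℤ := [-1, -2, 1, -4, -11, 6, -13, -24, 24, -32, -8, 32, -48, 32, -16]
def tA11 : List ℤ := [0, 2, 2, -2, 10, 6, -6, 34, -10, 0, 44, -56, 56, -32, 16]
def tL00 : List ℤ := [-1, -4, -3, -6, -32, -16, -6, -132, -13, 52, -355, 178, 166, -672, 764, -72,
  -728, 1344, -912, 96, 800, -1024, 832, -384, 128]
def tL02 : List ℤ := [-1, -12, -58, -148, -247, -400, -644, -648, -511, -812, -426, 348, -793,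
  -152, 1288, -1792, 176, 2080, -3168, 1792, 1568, -3712, 3456, -1024, -1536, 2560, -2048, 1024,
  -256]
def tL11 : List ℤ := [0, -10, -78, -240, -412, -626, -1014, -1040, -668, -950, -530, 704, -532,
  -358, 1646, -1408, -516, 2744, -2488, 576, 2960, -3872, 2464, 512, -2752, 3200, -2176, 1024,
  -256]
def tL20 : List ℤ := [1, 10, 44, 116, 219, 342, 462, 504, 419, 270, 88, -140, -251, -198, -218,
  -224, -116, -200, -344, -192, -144, -288, 32, 0, -192, 128, -128]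
def tL22 : List ℤ := [1, 10, 43, 108, 197, 334, 567, 864, 1187, 1590, 1953, 2044, 2039, 2050,
  1757, 1560, 1792, 1584, 1216, 1376, 992, 256, 672, 640, -256, 768, 256, -512, 768, -512, 256]
def tL31 : List ℤ := [0, 2, 18, 70, 162, 282, 462, 742, 1090, 1494, 1930, 2170, 2110, 2014, 1834,
  1538, 1654, 1776, 1436, 1272, 1096, 448, 272, 864, 32, 256, 832, -896, 896, -512, 256]
def lkap : List ℤ := [0, 0, 64, 832, 4736, 16128, 40128, 87232, 174080, 301952, 469184, 705984,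
  979072, 1213440, 1503296, 1788480, 1838336, 1980288, 2156800, 1830656, 1819648, 1957888,
  1254656, 1301760, 1463296, 504320, 830464, 883712, -45056, 563200, 339968, -184320, 376832,
  -8192, -49152, 147456, -65536, 32768]

/-- the discriminant identity; variables `s`, `u`, `ρ` -/
def discP : List E1 := [
/- m00 -/ .add (.hor lq00 (.v 0)) (.mul (.v 1) (.hor lq01 (.v 0))),
/- m01 -/ .add (.hor lr00 (.v 0)) (.mul (.v 1) (.hor lr01 (.v 0))),
/- m02 -/ .add (.hor ls00 (.v 0)) (.mul (.v 1) (.hor ls01 (.v 0))),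
/- m10 -/ .mul (.v 1) (.hor lq11 (.v 0)),
/- m11 -/ .hor lr10 (.v 0),
/- m12 -/ .mul (.v 1) (.hor ls11 (.v 0)),
/- m20 -/ .add (.hor lq20 (.v 0)) (.mul (.v 1) (.hor lq21 (.v 0))),
/- m21 -/ .add (.hor lr20 (.v 0)) (.mul (.v 1) (.hor lr21 (.v 0))),
/- m22 -/ .add (.hor ls20 (.v 0)) (.mul (.v 1) (.hor ls21 (.v 0))),
/- bb0 -/ .sub (.add (.r 8) (.mul (.v 1) (.r 7))) (.mul (.pow (.v 1) 2) (.r 6)),
/- bb1 -/ .sub (.add (.r 6) (.mul (.v 1) (.r 5))) (.mul (.pow (.v 1) 2) (.r 4)),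
/- bb2 -/ .sub (.add (.r 4) (.mul (.v 1) (.r 3))) (.mul (.pow (.v 1) 2) (.r 2)),
/- ee0 -/ .sub (.mul (.v 2) (.r 11)) (.mul (.v 1) (.r 9)),
/- ee1 -/ .sub (.mul (.v 2) (.r 9)) (.mul (.v 1) (.r 7)),
/- ee2 -/ .sub (.mul (.v 2) (.r 7)) (.mul (.v 1) (.r 5)),
/- c -/ .add (.add (.add (.add (.mul (.hor c01 (.v 0)) (.v 2)) (.mul (.hor c03 (.v 0)) (.pow (.v
    2) 3))) (.mul (.hor c10 (.v 0)) (.v 1))) (.mul (.mul (.hor c12 (.v 0)) (.v 1)) (.pow (.v 2)
    2))) (.mul (.mul (.hor c21 (.v 0)) (.pow (.v 1) 2)) (.v 2)),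
/- a -/ .add (.add (.add (.add (.add (.hor a00 (.v 0)) (.mul (.hor a02 (.v 0)) (.pow (.v 2) 2)))
    (.mul (.mul (.hor a11 (.v 0)) (.v 1)) (.v 2))) (.mul (.hor a20 (.v 0)) (.pow (.v 1) 2))) (.mul
    (.mul (.hor a22 (.v 0)) (.pow (.v 1) 2)) (.pow (.v 2) 2))) (.mul (.mul (.hor a31 (.v 0)) (.pow
    (.v 1) 3)) (.v 2)),
/- ff0 -/ .sub (.mul (.r 1) (.r 7)) (.mul (.r 0) (.r 4)),
/- ff1 -/ .sub (.mul (.r 2) (.r 7)) (.mul (.r 1) (.r 4)),
/- ff2 -/ .sub (.mul (.r 3) (.r 7)) (.mul (.r 2) (.r 4)),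
/- eps -/ .add (.hor le0 (.v 0)) (.mul (.hor le2 (.v 0)) (.pow (.v 1) 2)),
/- beta -/ .add (.add (.add (.add (.add (.add (.add (.add (.add (.hor b00 (.v 0)) (.mul (.hor b02
    (.v 0)) (.pow (.v 2) 2))) (.mul (.hor b04 (.v 0)) (.pow (.v 2) 4))) (.mul (.hor b06 (.v 0))
    (.pow (.v 2) 6))) (.mul (.mul (.hor b11 (.v 0)) (.v 1)) (.v 2))) (.mul (.mul (.hor b13 (.v 0))
    (.v 1)) (.pow (.v 2) 3))) (.mul (.mul (.hor b15 (.v 0)) (.v 1)) (.pow (.v 2) 5))) (.mul (.hor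
    b20 (.v 0)) (.pow (.v 1) 2))) (.mul (.mul (.hor b22 (.v 0)) (.pow (.v 1) 2)) (.pow (.v 2) 2)))
    (.mul (.mul (.hor b24 (.v 0)) (.pow (.v 1) 2)) (.pow (.v 2) 4)),
/- fin -/ .sub (.sub (.pow (.r 3) 2) (.mul (.mul (.k 4) (.r 4)) (.r 2))) (.mul (.mul (.pow (.v 1)
    2) (.pow (.r 1) 2)) (.r 0))]

/-- the twin identity; variables `s`, `u`, `x₀`, `x₁`, `x₂` -/
def twinP : List E1 := [
/- al0 -/ .add (.add (.mul (.hor lq00 (.v 0)) (.v 2)) (.mul (.hor lr00 (.v 0)) (.v 3))) (.mul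
    (.hor ls00 (.v 0)) (.v 4)),
/- al1 -/ .mul (.hor lr10 (.v 0)) (.v 3),
/- al2 -/ .add (.add (.mul (.hor lq20 (.v 0)) (.v 2)) (.mul (.hor lr20 (.v 0)) (.v 3))) (.mul
    (.hor ls20 (.v 0)) (.v 4)),
/- be0 -/ .add (.add (.mul (.hor lq01 (.v 0)) (.v 2)) (.mul (.hor lr01 (.v 0)) (.v 3))) (.mul
    (.hor ls01 (.v 0)) (.v 4)),
/- be1 -/ .add (.mul (.hor lq11 (.v 0)) (.v 2)) (.mul (.hor ls11 (.v 0)) (.v 4)),
/- be2 -/ .add (.add (.mul (.hor lq21 (.v 0)) (.v 2)) (.mul (.hor lr21 (.v 0)) (.v 3))) (.mul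
    (.hor ls21 (.v 0)) (.v 4)),
/- A2 -/ .sub (.pow (.r 1) 2) (.mul (.mul (.k 4) (.r 2)) (.r 0)),
/- A1 -/ .sub (.mul (.mul (.k 2) (.r 5)) (.r 2)) (.mul (.k 4) (.add (.mul (.r 6) (.r 1)) (.mul (.r
    4) (.r 3)))),
/- A0 -/ .sub (.pow (.r 6) 2) (.mul (.mul (.k 4) (.r 7)) (.r 5)),
/- yy -/ .sub (.mul (.v 1) (.v 2)) (.v 3),
/- zz -/ .sub (.k 0) (.add (.v 4) (.mul (.v 1) (.v 3))),
/- ch -/ .add (.add (.add (.add (.mul (.mul (.hor c01 (.v 0)) (.r 1)) (.pow (.r 0) 2)) (.mul (.hor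
    c03 (.v 0)) (.pow (.r 1) 3))) (.mul (.mul (.hor c10 (.v 0)) (.v 1)) (.pow (.r 0) 3))) (.mul
    (.mul (.mul (.hor c12 (.v 0)) (.v 1)) (.pow (.r 1) 2)) (.r 0))) (.mul (.mul (.mul (.hor c21
    (.v 0)) (.pow (.v 1) 2)) (.r 1)) (.pow (.r 0) 2)),
/- ah -/ .add (.add (.add (.add (.add (.mul (.hor a00 (.v 0)) (.pow (.r 1) 2)) (.mul (.hor a02 (.v
    0)) (.pow (.r 2) 2))) (.mul (.mul (.mul (.hor a11 (.v 0)) (.v 1)) (.r 2)) (.r 1))) (.mul (.mul
    (.hor a20 (.v 0)) (.pow (.v 1) 2)) (.pow (.r 1) 2))) (.mul (.mul (.hor a22 (.v 0)) (.pow (.v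
    1) 2)) (.pow (.r 2) 2))) (.mul (.mul (.mul (.hor a31 (.v 0)) (.pow (.v 1) 3)) (.r 2)) (.r 1)),
/- eps -/ .add (.hor le0 (.v 0)) (.mul (.hor le2 (.v 0)) (.pow (.v 1) 2)),
/- lA0 -/ .add (.mul (.hor tA00 (.v 0)) (.v 2)) (.mul (.hor tA02 (.v 0)) (.v 4)),
/- lA1 -/ .mul (.hor tA11 (.v 0)) (.v 3),
/- lam -/ .add (.add (.add (.add (.add (.mul (.hor tL00 (.v 0)) (.v 2)) (.mul (.hor tL02 (.v 0))
    (.v 4))) (.mul (.mul (.hor tL11 (.v 0)) (.v 1)) (.v 3))) (.mul (.mul (.hor tL20 (.v 0)) (.pow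
    (.v 1) 2)) (.v 2))) (.mul (.mul (.hor tL22 (.v 0)) (.pow (.v 1) 2)) (.v 4))) (.mul (.mul (.hor
    tL31 (.v 0)) (.pow (.v 1) 3)) (.v 3)),
/- fin -/ .sub (.mul (.hor lkap (.v 0)) (.add (.r 5) (.mul (.v 3) (.r 4)))) (.mul (.v 1) (.add
    (.mul (.pow (.r 3) 2) (.sub (.mul (.r 10) (.r 2)) (.mul (.add (.r 9) (.mul (.v 1) (.r 10)))
    (.r 1)))) (.mul (.add (.add (.mul (.r 10) (.pow (.v 1) 2)) (.mul (.r 9) (.v 1))) (.r 8)) (.r
    0))))]

/-- the common denominator -/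
noncomputable def kap (s : ℂ) : ℂ := hor lkap s

/-- the data of the family -/
noncomputable def D (s : ℂ) : Data where
  M0 := !![hor lq00 s, hor lr00 s, hor ls00 s; 0, hor lr10 s, 0; hor lq20 s, hor lr20 s, hor ls20 s]
  M1 := !![hor lq01 s, hor lr01 s, hor ls01 s; hor lq11 s, 0, hor ls11 s;
    hor lq21 s, hor lr21 s, hor ls21 s]
  c := ![![0, hor c01 s, 0, hor c03 s], ![hor c10 s, 0, hor c12 s, 0], ![0, hor c21 s, 0, 0]]
  a := ![![hor a00 s, 0, hor a02 s], ![0, hor a11 s, 0], ![hor a20 s, 0, hor a22 s],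
    ![0, hor a31 s, 0]]
  e := ![hor le0 s, 0, hor le2 s]
  A0 := ![hor tA00 s / kap s, 0, hor tA02 s / kap s]
  A1 := ![0, hor tA11 s / kap s, 0]
  lam := ![![hor tL00 s / kap s, 0, hor tL02 s / kap s], ![0, hor tL11 s / kap s, 0],
    ![hor tL20 s / kap s, 0, hor tL22 s / kap s], ![0, hor tL31 s / kap s, 0]]
  b := ![![hor b00 s, 0, hor b02 s, 0, hor b04 s, 0, hor b06 s],
    ![0, hor b11 s, 0, hor b13 s, 0, hor b15 s, 0],
    ![hor b20 s, 0, hor b22 s, 0, hor b24 s, 0, 0]]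

theorem chkDisc : check1 discP [47, 3315, 35992] = true := by decide +kernel

theorem chkTwin : check1 twinP [43, 2688, 18815, 72053, 234888] = true := by decide +kernel

end Vale.Agent.P297.H572
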