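import Vale.Agent.P297.H160.Kron

/-! Straight-line programs over `ℤ[x₀,x₁,…]`, with Horner evaluation of integer polynomials;
a kernel-friendly check of polynomial identities (Kronecker substitution), and evaluation modulo a
prime. -/

namespace Vale.Agent.P297.H572

open MvPolynomial Vale.Agent.P297.H160

/-- the value at `s` of the polynomial with coefficients `l` (lowest first) -/
def hor {R : Type*} [CommRing R] : List ℤ → R → R
  | [], _ => 0
  | a :: l, s => (a : R) + s * hor l s

/-- expressions -/
inductive E1 : Type
  | v : ℕ → E1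
  | k : ℤ → E1
  | r : ℕ → E1
  | add : E1 → E1 → E1
  | sub : E1 → E1 → E1
  | mul : E1 → E1 → E1
  | pow : E1 → ℕ → E1
  | hor : List ℤ → E1 → E1

instance : Add E1 := ⟨E1.add⟩
instance : Sub E1 := ⟨E1.sub⟩
instance : Mul E1 := ⟨E1.mul⟩
instance : HPow E1 ℕ E1 := ⟨E1.pow⟩

section

variable {M : Type*} (o : Bo M)

/-- powers -/
def pw (x : M) : ℕ → M
  | 0 => o.ci 1
  | 1 => x
  | n + 2 => o.ml (pw x (n + 1)) x

/-- Horner evaluation -/
def horn (x : M) : List ℤ → M
  | [] => o.ci 0
  | a :: l => o.ad (o.ci a) (o.ml x (horn x l))

/-- list access -/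
def nth : List M → ℕ → M
  | [], _ => o.ci 0
  | x :: _, 0 => x
  | _ :: l, n + 1 => nth l n

/-- evaluation -/
def ev (st : List M) : E1 → M
  | .v i => o.vr i
  | .k z => o.ci z
  | .r i => nth o st i
  | .add a b => o.ad (ev st a) (ev st b)
  | .sub a b => o.sb (ev st a) (ev st b)
  | .mul a b => o.ml (ev st a) (ev st b)
  | .pow a n => pw o (ev st a) n
  | .hor l a => horn o (ev st a) l

/-- run a program: the registers, most recent first -/
def run (st : List M) : List E1 → List M
  | [] => st
  | e :: es =>
    match o.fc (ev o st e) with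
    | true => run (ev o st e :: st) es
    | false => run (ev o st e :: st) es

theorem run_cons (st : List M) (e : E1) (es : List E1) :
    run o st (e :: es) = run o (ev o st e :: st) es := by
  rw [run]
  split <;> rfl

theorem run_nil (st : List M) : run o st [] = st := rfl

theorem run_append (es es' : List E1) : ∀ st : List M,
    run o st (es ++ es') = run o (run o st es) es' := by
  induction es with
  | nil => intro st; rfl
  | cons e es ih => intro st; rw [List.cons_append, run_cons, run_cons, ih]

end

section

variable {M N : Type*} {o : Bo M} {o' : Bo N} {R : M → N → Prop} (h : BRel o o' R)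
include h

theorem rel_pw {x : M} {y : N} (hx : R x y) : ∀ n, R (pw o x n) (pw o' y n)
  | 0 => h.ci _
  | 1 => hx
  | n + 2 => h.ml (rel_pw hx (n + 1)) hx

theorem rel_horn {x : M} {y : N} (hx : R x y) : ∀ l, R (horn o x l) (horn o' y l)
  | [] => h.ci _
  | a :: l => h.ad (h.ci a) (h.ml hx (rel_horn hx l))

theorem rel_nth {l : List M} {l' : List N} (h1 : List.Forall₂ R l l') : ∀ n,
    R (nth o l n) (nth o' l' n) := by
  induction h1 with
  | nil => intro n; exact h.ci _
  | cons ha _ ih =>
    intro n
    cases n with
    | zero => exact ha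
    | succ n => exact ih n

theorem rel_ev {st : List M} {st' : List N} (hst : List.Forall₂ R st st') : ∀ e : E1,
    R (ev o st e) (ev o' st' e)
  | .v i => h.vr i
  | .k _ => h.ci _
  | .r i => rel_nth h hst i
  | .add a b => h.ad (rel_ev hst a) (rel_ev hst b)
  | .sub a b => h.sb (rel_ev hst a) (rel_ev hst b)
  | .mul a b => h.ml (rel_ev hst a) (rel_ev hst b)
  | .pow a n => rel_pw h (rel_ev hst a) n
  | .hor l a => rel_horn h (rel_ev hst a) l

theorem rel_run : ∀ (es : List E1) {st : List M} {st' : List N}, List.Forall₂ R st st' →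
    List.Forall₂ R (run o st es) (run o' st' es)
  | [], _, _, hst => hst
  | e :: es, st, st', hst => by
    rw [run_cons, run_cons]
    exact rel_run es (List.Forall₂.cons (rel_ev h hst e) hst)

end

/-! ### semantics in a commutative ring -/

/-- the values of the variables -/
def vec {A : Type*} [Zero A] : List A → ℕ → A
  | [], _ => 0
  | x :: _, 0 => x
  | _ :: l, n + 1 => vec l n

/-- the operations of a commutative ring; `l` lists the values of the variables -/
def rg {A : Type*} [CommRing A] (l : List A) : Bo A where
  ad := fun a b => a + b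
  sb := fun a b => a - b
  ml := fun a b => a * b
  ci := fun z => (z : A)
  vr := vec l
  fc := fun _ => true

theorem vec_get {A : Type*} [Zero A] (l : List A) (i : ℕ) (hi : i < l.length) :
    vec l i = l[i] := by
  induction l generalizing i with
  | nil => simp at hi
  | cons a l ih =>
    cases i with
    | zero => rfl
    | succ i => simpa [vec] using ih i (by simpa using hi)

theorem vec_zero {A : Type*} [Zero A] (l : List A) (i : ℕ) (hi : l.length ≤ i) :
    vec l i = 0 := by
  induction l generalizing i with
  | nil => rfl
  | cons a l ih =>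
    cases i with
    | zero => simp at hi
    | succ i => exact ih i (by simpa using hi)

theorem rel_hom {A B : Type*} [CommRing A] [CommRing B] (f : A →+* B) (l : List A) :
    BRel (rg l) (rg (l.map f)) (fun a b => f a = b) where
  ad := by rintro a b _ _ rfl rfl; exact map_add f a b
  sb := by rintro a b _ _ rfl rfl; exact map_sub f a b
  ml := by rintro a b _ _ rfl rfl; exact map_mul f a b
  ci x := map_intCast f x
  vr i := by
    change f (vec l i) = vec (l.map f) i
    induction l generalizing i with
    | nil => exact map_zero f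
    | cons a l ih =>
      cases i with
      | zero => rfl
      | succ i => exact ih i

theorem rel_poly {A : Type*} [CommRing A] (l : List A) :
    BRel (boP l.length) (rg l) (fun p a => aeval (fun i : Fin l.length => l[i]) p = a) where
  ad := by rintro a b _ _ rfl rfl; exact map_add _ a b
  sb := by rintro a b _ _ rfl rfl; exact map_sub _ a b
  ml := by rintro a b _ _ rfl rfl; exact map_mul _ a b
  ci x := by simp [boP, rg]
  vr i := by
    simp only [boP, rg]
    split_ifs with h
    · rw [aeval_X, vec_get l i h]; rfl
    · rw [map_zero, vec_zero l i (not_lt.mp h)]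

/-! ### the check -/

/-- test for zero -/
def isZ1 : ℤ → Bool
  | .ofNat n => Nat.beq n 0
  | .negSucc _ => false

/-- the top register -/
def top1 {R : Type*} (t : R → Bool) : List R → Bool
  | [] => false
  | x :: _ => t x

/-- bounds for all radices -/
def bnds1 (es : List E1) (m : ℕ) (B : ℕ → ℕ) : ℕ → Bool
  | 0 => true
  | k + 1 => bnds1 es m B k && top1 (fun n => Nat.blt n (B k)) (run (boN m k B) [] es)

/-- **the check**: `L` lists the bit sizes of the radices, one for each variable -/
def check1 (es : List E1) (L : List ℕ) : Bool :=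
  top1 isZ1 (run (boZ L.length (rad L)) [] es) && bnds1 es L.length (rad L) L.length

theorem bnds1_spec (es : List E1) (m : ℕ) (B : ℕ → ℕ) : ∀ n,
    bnds1 es m B n = true → ∀ k < n,
      top1 (fun n => Nat.blt n (B k)) (run (boN m k B) [] es) = true
  | 0, _, k, hk => absurd hk (Nat.not_lt_zero k)
  | n + 1, h, k, hk => by
    simp only [bnds1, Bool.and_eq_true] at h
    rcases Nat.lt_succ_iff_lt_or_eq.mp hk with h1 | h1
    · exact bnds1_spec es m B n h.1 k h1
    · rw [h1]; exact h.2

/-- **soundness**: the top register vanishes in every commutative ring -/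
theorem check1_sound {es : List E1} {L : List ℕ} (h : check1 es L = true)
    {A : Type*} [CommRing A] (l : List A) (hl : l.length = L.length) :
    ∃ l', run (rg l) [] es = 0 :: l' := by
  simp only [check1, Bool.and_eq_true] at h
  obtain ⟨h1, h2⟩ := h
  have h3 := bnds1_spec es L.length (rad L) L.length h2
  rw [← hl] at h1 h3
  have k1 := rel_run (relPZ l.length (rad L)) es .nil
  have k2 := fun k => rel_run (relPN l.length k (rad L)) es .nil
  have k3 := rel_run (rel_poly l) es .nil
  generalize run (boP l.length) [] es = lp at k1 k2 k3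
  generalize run (boZ l.length (rad L)) [] es = lz at k1 h1
  generalize run (rg l) [] es = la at k3 ⊢
  cases k1 with
  | nil => simp [top1] at h1
  | cons hz _ =>
    rename_i p z lp' lz' _
    cases k3 with
    | cons ha _ =>
      rename_i a la' _
      refine ⟨la', ?_⟩
      have hp : p = 0 := by
        refine poly_zero (rad L) p (fun k hk => ?_) ?_
        · have hh := h3 k hk
          have hk2 := k2 k
          generalize run (boN l.length k (rad L)) [] es = ln at hk2 hh
          cases hk2 with
          | cons hn _ =>
            rename_i n ln' _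
            have h6 := Nat.blt_eq.mp hh
            obtain ⟨Q, h7, h8⟩ := hn
            exact ⟨⟨Q, h7, by omega⟩, by omega⟩
        · rw [hz]
          revert h1
          change isZ1 z = true → _
          intro h1
          cases z with
          | ofNat n => rw [Nat.eq_of_beq_eq_true (show Nat.beq n 0 = true from h1)]; rfl
          | negSucc n => simp [isZ1] at h1
      rw [← ha, hp, map_zero]

/-! ### evaluation modulo `p` -/

/-- the operations modulo `p` on representatives -/
def boM (p : ℕ) (l : List ℕ) : Bo ℕ where
  ad := fun a b => Nat.mod (Nat.add a b) p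
  sb := fun a b => Nat.mod (Nat.add a (Nat.mul (Nat.pred p) b)) p
  ml := fun a b => Nat.mod (Nat.mul a b) p
  ci := fun z => match z with
    | .ofNat n => Nat.mod n p
    | .negSucc n => Nat.mod (Nat.mul (Nat.pred p) (Nat.succ n)) p
  vr := vec l
  fc := fun n => Nat.beq n n

theorem rel_mod (p : ℕ) (hp : 0 < p) (l : List ℕ) :
    BRel (boM p l) (rg (l.map (Nat.cast : ℕ → ZMod p))) (fun n a => (n : ZMod p) = a) where
  ad := by
    rintro a b _ _ rfl rfl
    change ((((a + b) % p : ℕ)) : ZMod p) = _
    rw [ZMod.natCast_mod]
    push_cast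
    rfl
  sb := by
    rintro a b _ _ rfl rfl
    change ((((a + (p - 1) * b) % p : ℕ)) : ZMod p) = (a : ZMod p) - b
    rw [ZMod.natCast_mod]
    push_cast [Nat.cast_sub hp]
    rw [ZMod.natCast_self]
    ring
  ml := by
    rintro a b _ _ rfl rfl
    change ((((a * b) % p : ℕ)) : ZMod p) = _
    rw [ZMod.natCast_mod]
    push_cast
    rfl
  ci x := by
    cases x with
    | ofNat n =>
      change (((n % p : ℕ)) : ZMod p) = ((Int.ofNat n : ℤ) : ZMod p)
      rw [ZMod.natCast_mod]
      simp
    | negSucc n =>
      change (((((p - 1) * (n + 1)) % p : ℕ)) : ZMod p) = ((Int.negSucc n : ℤ) : ZMod p)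
      rw [ZMod.natCast_mod, Int.cast_negSucc]
      push_cast [Nat.cast_sub hp]
      rw [ZMod.natCast_self]
      ring
  vr i := by
    change ((vec l i : ℕ) : ZMod p) = vec (l.map Nat.cast) i
    induction l generalizing i with
    | nil => simp [vec]
    | cons a l ih =>
      cases i with
      | zero => rfl
      | succ i => exact ih i

/-! ### simp lemmas -/

section

variable {A : Type*} [CommRing A] (l st : List A)

theorem horn_rg (x : A) : ∀ k : List ℤ, horn (rg l) x k = hor k x
  | [] => Int.cast_zero
  | a :: k => by
    change (a : A) + x * horn (rg l) x k = hor (a :: k) x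
    rw [horn_rg x k]
    rfl

theorem pw_rg (x : A) : ∀ n : ℕ, pw (rg l) x n = x ^ n
  | 0 => by rw [pow_zero]; exact Int.cast_one
  | 1 => by rw [pow_one]; rfl
  | n + 2 => by
    change pw (rg l) x (n + 1) * x = _
    rw [pw_rg x (n + 1), ← pow_succ]

theorem ev_v (i : ℕ) : ev (rg l) st (.v i) = vec l i := rfl
theorem ev_k (z : ℤ) : ev (rg l) st (.k z) = (z : A) := rfl
theorem ev_r (i : ℕ) : ev (rg l) st (.r i) = nth (rg l) st i := rfl
theorem ev_add (a b : E1) : ev (rg l) st (.add a b) = ev (rg l) st a + ev (rg l) st b := rfl
theorem ev_sub (a b : E1) : ev (rg l) st (.sub a b) = ev (rg l) st a - ev (rg l) st b := rfl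
theorem ev_mul (a b : E1) : ev (rg l) st (.mul a b) = ev (rg l) st a * ev (rg l) st b := rfl
theorem ev_add' (a b : E1) : ev (rg l) st (a + b) = ev (rg l) st a + ev (rg l) st b := rfl
theorem ev_sub' (a b : E1) : ev (rg l) st (a - b) = ev (rg l) st a - ev (rg l) st b := rfl
theorem ev_mul' (a b : E1) : ev (rg l) st (a * b) = ev (rg l) st a * ev (rg l) st b := rfl
theorem ev_pow (a : E1) (n : ℕ) : ev (rg l) st (.pow a n) = ev (rg l) st a ^ n := pw_rg l _ n
theorem ev_pow' (a : E1) (n : ℕ) : ev (rg l) st (a ^ n) = ev (rg l) st a ^ n := pw_rg l _ n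
theorem ev_hor (k : List ℤ) (a : E1) : ev (rg l) st (.hor k a) = hor k (ev (rg l) st a) :=
  horn_rg l _ k
theorem nth_zero (x : A) : nth (rg l) (x :: st) 0 = x := rfl
theorem nth_succ (x : A) (n : ℕ) : nth (rg l) (x :: st) (n + 1) = nth (rg l) st n := rfl
theorem vec_0 (x : A) : vec (x :: l) 0 = x := rfl
theorem vec_s (x : A) (n : ℕ) : vec (x :: l) (n + 1) = vec l n := rfl

theorem map_hor {B : Type*} [CommRing B] (f : A →+* B) (k : List ℤ) (s : A) :
    f (hor k s) = hor k (f s) := by
  induction k with
  | nil => exact map_zero f
  | cons a k ih => simp only [hor, map_add, map_mul, map_intCast, ih]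

end

end Vale.Agent.P297.H572
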