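import Mathlib.Algebra.Ring.Defs

/-! A one-parameter family of quintic forms. -/

namespace Vale.Agent.P297.H572

variable {K : Type*} [CommRing K]

/-- The quintic form with parameter `s`. -/
def famForm (s x y z w : K) : K :=
  s ^ 2 *
    (x ^ 3 * (s * (s ^ 5 - s ^ 4 - s ^ 3 - s ^ 2 - 2 * s - 1) * y + s ^ 2 * (1 - s ^ 2) * z +
        s ^ 4 * (s ^ 2 + s + 1) * w) ^ 2 +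
      y ^ 3 * (s * (s ^ 5 - s ^ 4 - s ^ 3 - s ^ 2 - 2 * s - 1) * z + s ^ 2 * (1 - s ^ 2) * w +
        s ^ 4 * (s ^ 2 + s + 1) * x) ^ 2 +
      z ^ 3 * (s * (s ^ 5 - s ^ 4 - s ^ 3 - s ^ 2 - 2 * s - 1) * w + s ^ 2 * (1 - s ^ 2) * x +
        s ^ 4 * (s ^ 2 + s + 1) * y) ^ 2 +
      w ^ 3 * (s * (s ^ 5 - s ^ 4 - s ^ 3 - s ^ 2 - 2 * s - 1) * x + s ^ 2 * (1 - s ^ 2) * y +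
        s ^ 4 * (s ^ 2 + s + 1) * z) ^ 2) +
  (3 * s ^ 14 - 2 * s ^ 13 + s ^ 12 + 6 * s ^ 11 + 6 * s ^ 10 + 10 * s ^ 9 + 8 * s ^ 8 + s ^ 7 -
      5 * s ^ 6 - 11 * s ^ 5 - 10 * s ^ 4 - 7 * s ^ 3 - 4 * s ^ 2 - s) *
    (x ^ 2 * y ^ 2 * z + y ^ 2 * z ^ 2 * w + z ^ 2 * w ^ 2 * x + w ^ 2 * x ^ 2 * y) -
  (s ^ 14 + 2 * s ^ 13 - 5 * s ^ 12 + s ^ 10 - 5 * s ^ 9 + 5 * s ^ 8 + 9 * s ^ 7 + 3 * s ^ 6 +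
      7 * s ^ 5 + 5 * s ^ 4 - s ^ 3 - s ^ 2) *
    (x ^ 2 * y ^ 2 * w + y ^ 2 * z ^ 2 * x + z ^ 2 * w ^ 2 * y + w ^ 2 * x ^ 2 * z) +
  (4 * s ^ 13 - 4 * s ^ 11 + 3 * s ^ 10 - s ^ 9 - 6 * s ^ 8 + 2 * s ^ 7 + s ^ 6 - 2 * s ^ 5 +
      4 * s ^ 4 + 2 * s ^ 3 - 2 * s ^ 2 - s) *
    (x ^ 2 * z ^ 2 * y + y ^ 2 * w ^ 2 * z + z ^ 2 * x ^ 2 * w + w ^ 2 * y ^ 2 * x) +
  (2 * s ^ 14 - 8 * s ^ 13 + 2 * s ^ 12 + 2 * s ^ 11 - 11 * s ^ 10 + 2 * s ^ 9 + 5 * s ^ 8 -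
      2 * s ^ 7 + 8 * s ^ 6 + 10 * s ^ 5 + 8 * s ^ 4 + 8 * s ^ 3 + 7 * s ^ 2 + 4 * s + 1) *
    (x ^ 2 * y * z * w + y ^ 2 * z * w * x + z ^ 2 * w * x * y + w ^ 2 * x * y * z)

end Vale.Agent.P297.H572
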