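import Vale.Agent.P297.H572.FamDefs
import Vale.Agent.P297.H572.Asm3

/-! The quintic form and the program. -/

namespace Vale.Agent.P297.H572

theorem vF_fam {K : Type*} [CommRing K] (S x y z : K) : vF S x y z = famForm S x y z 1 := by
  rw [vF_eq]
  unfold F3 F2 F1 F0 famForm
  have h1 : hor la1 S = S * (S ^ 5 - S ^ 4 - S ^ 3 - S ^ 2 - 2 * S - 1) := by
    simp only [hor, la1]
    push_cast
    ring
  have h2 : hor la2 S = S ^ 2 * (1 - S ^ 2) := by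
    simp only [hor, la2]
    push_cast
    ring
  have h3 : hor la3 S = S ^ 4 * (S ^ 2 + S + 1) := by
    simp only [hor, la3]
    push_cast
    ring
  have h4 : hor lP S = 3 * S ^ 14 - 2 * S ^ 13 + S ^ 12 + 6 * S ^ 11 + 6 * S ^ 10 + 10 * S ^ 9 +
      8 * S ^ 8 + S ^ 7 - 5 * S ^ 6 - 11 * S ^ 5 - 10 * S ^ 4 - 7 * S ^ 3 - 4 * S ^ 2 - S := by
    simp only [hor, lP]
    push_cast
    ring
  have h5 : hor lQ S = -(S ^ 14 + 2 * S ^ 13 - 5 * S ^ 12 + S ^ 10 - 5 * S ^ 9 + 5 * S ^ 8 +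
      9 * S ^ 7 + 3 * S ^ 6 + 7 * S ^ 5 + 5 * S ^ 4 - S ^ 3 - S ^ 2) := by
    simp only [hor, lQ]
    push_cast
    ring
  have h6 : hor lR S = 4 * S ^ 13 - 4 * S ^ 11 + 3 * S ^ 10 - S ^ 9 - 6 * S ^ 8 + 2 * S ^ 7 +
      S ^ 6 - 2 * S ^ 5 + 4 * S ^ 4 + 2 * S ^ 3 - 2 * S ^ 2 - S := by
    simp only [hor, lR]
    push_cast
    ring
  have h7 : hor lS S = 2 * S ^ 14 - 8 * S ^ 13 + 2 * S ^ 12 + 2 * S ^ 11 - 11 * S ^ 10 +
      2 * S ^ 9 + 5 * S ^ 8 - 2 * S ^ 7 + 8 * S ^ 6 + 10 * S ^ 5 + 8 * S ^ 4 + 8 * S ^ 3 +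
      7 * S ^ 2 + 4 * S + 1 := by
    simp only [hor, lS]
    push_cast
    ring
  rw [h4, h5, h6, h7, ← h1, ← h2, ← h3]
  generalize hor la1 S = a
  generalize hor la2 S = b
  generalize hor la3 S = c
  ring

end Vale.Agent.P297.H572
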