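import Vale.Agent.P297.H572.Tab

/-! The two relations modulo the quintic form. -/

namespace Vale.Agent.P297.H572

def WQ0 : List ℤ := [0, 0, 0, 0, 0, 0, 0, 0, 0, 0, 0, 0, 0, 0, -64, -256, 64, 1024, -576, -2752,
  3200, 3904, -9216, 832, 14144, -13696, -6592, 22976, -13184, -12160, 22848, -8960, -9728, 13312,
  -4608, -2816, 3584, -1536, 256]
def WQ1 : List ℤ := [0, 0, 0, 0, 0, 0, 0, 0, -64, -384, -384, 1536, 1920, -4992, -3648, 13824,
  576, -25984, 16576, 27008, -43136, 256, 47616, -38272, -11392, 36608, -21632, 3456, 2688,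
  -14080, 26752, -15872, -11776, 23552, -11264, -3584, 6656, -3072, 512]
def WQ2 : List ℤ := [0, 0, 0, 0, 0, 0, 0, 0, 0, 64, 384, 448, -1152, -1408, 4160, 2368, -10816,
  1920, 18496, -18048, -13696, 37632, -17024, -30912, 49344, -16192, -32832, 50304, -26240,
  -16192, 44864, -36736, 0, 29696, -27136, 5632, 8704, -8448, 3328, -512]
def WQ3 : List ℤ := [0, 0, 0, 0, 0, 0, 64, 448, 704, -1472, -3712, 3520, 7616, -11392, -5056,
  27840, -21120, -33920, 78592, -13440, -119488, 121280, 60800, -192576, 84032, 121344, -164736,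
  26496, 98432, -86784, 2560, 42240, -26880, 0, 7680, -3584, 512]
def WQ4 : List ℤ := [0, 0, 0, 0, 0, 0, 0, -128, -896, -1536, 2176, 6400, -5504, -12928, 19072,
  11776, -45312, 24448, 57728, -107776, 7168, 169856, -164224, -87936, 273664, -128896, -167936,
  255232, -68864, -140800, 164608, -40448, -66560, 72192, -21504, -13312, 15360, -6144, 1024]
def WQ5 : List ℤ := [0, 0, 0, 0, 0, 0, 0, 0, 64, 448, 832, -704, -2624, 2304, 5632, -8000, -6208,
  18816, -7104, -26304, 39168, 4096, -67392, 57280, 41088, -108032, 47232, 73152, -109760, 30848,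
  65856, -82944, 24064, 35840, -44288, 15616, 8448, -11776, 5376, -1024]
def WQ6 : List ℤ := [0, 0, 0, 0, 0, 0, 0, -64, -320, 64, 2240, 512, -8384, 320, 21312, -12288,
  -34048, 46912, 18112, -87168, 51136, 73024, -129472, 23232, 120896, -114432, -22016, 101120,
  -49664, -26880, 38144, -9472, -6912, 5120, -1024]
def WQ7 : List ℤ := [0, 0, 0, 0, 0, 0, 0, 0, 128, 576, -384, -4288, 512, 16256, -4928, -39616,
  30528, 57920, -91904, -21504, 150144, -98880, -107072, 214656, -58816, -180416, 192512, 19712,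
  -157824, 81920, 42752, -59904, 11008, 13568, -7168, 0, 512]
def WQ8 : List ℤ := [0, 0, 0, 0, 0, 0, 0, 0, 0, -64, -192, 704, 2560, -1984, -9792, 6912, 21760,
  -24448, -27456, 56512, 1792, -76736, 58880, 42112, -102144, 37824, 74944, -86912, -9728, 70400,
  -25216, -33792, 26112, 9984, -17152, 2560, 5120, -3072, 512]
def WQ9 : List ℤ := [0, 0, 0, 0, 0, 0, 0, 0, 0, 0, 0, -64, -384, -512, 896, 1600, -2624, -3008,
  6272, 2368, -10048, 3264, 9280, -9600, -1088, 9216, -5376, -3840, 3904, 4672, -4800, -7296,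
  12032, -768, -10496, 8192, 256, -3840, 2304, -512]
def WQ10 : List ℤ := [0, 0, 0, 0, 0, 0, 0, 64, 448, 832, -768, -3072, 1280, 5440, -5568, -4416,
  15296, -9280, -20800, 40960, 896, -67264, 51584, 47744, -96512, 17984, 83968, -74880, -27520,
  81856, -24320, -52608, 48128, 10752, -37376, 16384, 7680, -10496, 4096, -512]
def WQ11 : List ℤ := [0, 0, 0, 0, 0, 0, 0, 0, -64, -448, -896, 448, 2880, -256, -5312, 1920, 5888,
  -5440, 3840, 4544, -26432, 20992, 40192, -76800, 1344, 109504, -99392, -42240, 148608, -90944,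
  -61952, 133760, -62208, -45056, 72960, -29184, -11776, 18176, -8192, 1536]
def WQ12 : List ℤ := [0, 0, 0, 0, 0, 0, 0, -192, -1472, -3008, 2944, 13504, -5056, -31552, 24320,
  49152, -80576, -20288, 154304, -115456, -135232, 302080, -87232, -308736, 369792, 6848, -359168,
  306048, 20992, -250880, 210048, -18432, -113664, 103168, -25088, -23040, 23552, -9216, 1536]
def WQ13 : List ℤ := [0, 0, 0, 0, 0, 0, 0, 192, 1600, 4032, -640, -14464, -2048, 35392, -8640,
  -69696, 60736, 83008, -173888, -384, 281216, -217920, -231552, 447616, -40576, -456512, 357760,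
  171776, -435200, 185024, 198912, -297344, 96256, 121856, -152576, 48640, 33792, -40192, 16384,
  -2560]
def WQ14 : List ℤ := [0, 0, 0, 0, 0, 0, 0, 0, -192, -1408, -2752, 2432, 10048, -7168, -23616,
  27520, 34048, -73600, -896, 123840, -108160, -88320, 232128, -89344, -202688, 270784, -29504,
  -221632, 221760, -27200, -146816, 163200, -46080, -72192, 89856, -30976, -18176, 23296, -9728,
  1536]
def WQ15 : List ℤ := [0, 0, 0, 0, 0, 0, 64, 448, 896, -512, -3776, -2752, 5376, 10688, -3008,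
  -26880, 2496, 56000, -22208, -79040, 75392, 48576, -121984, 46144, 88128, -122688, 14720,
  100224, -80384, -23040, 62976, -18688, -20224, 15104, 512, -3584, 1024]
def WQ16 : List ℤ := [0, 0, 0, 0, 0, -64, -448, -832, 384, 704, -3584, 5824, 22016, -30208,
  -56192, 103040, 63680, -228480, 51200, 290240, -298752, -102464, 427072, -262976, -188992,
  374848, -143616, -99968, 104448, -69120, 116224, -80640, -71936, 144640, -66560, -26112, 41984,
  -18432, 3072]
def WQ17 : List ℤ := [0, 0, 0, 0, 0, 0, 128, 896, 1600, -1600, -4736, 5312, 4672, -22400, 15936,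
  54144, -91392, -50368, 217984, -90432, -260160, 345344, 27392, -424704, 351040, 107456, -401472,
  254848, 46848, -170432, 150016, -114304, 30464, 97792, -139008, 56320, 31744, -45824, 20480,
  -3584]
def WQ18 : List ℤ := [0, 0, 0, 0, 0, 0, 0, -128, -896, -1728, 1280, 6656, 448, -11456, -832,
  11136, 1280, 4544, -15360, -32832, 63424, 33408, -134400, 42688, 147840, -167488, -28736,
  203264, -146560, -67072, 184448, -94464, -56832, 98048, -38656, -15360, 22016, -9216, 1536]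
def WQ19 : List ℤ := [0, 0, 0, 0, 0, 0, 192, 1664, 4480, 128, -15808, -7168, 33664, -768, -60928,
  60416, 64960, -186944, 36864, 286400, -265024, -190464, 424768, -76672, -311232, 220032, 103360,
  -157632, -73280, 181184, 34176, -267904, 174592, 112896, -222464, 92928, 45824, -65792, 28160,
  -4608]
def WC0 : List ℤ := [0, 0, 0, 0, 0, 0, 0, 0, 0, -32, -224, -384, 576, 1760, -1248, -3520, 5056,
  4096, -13568, 3488, 20768, -25920, -9408, 47648, -32160, -31648, 69792, -30336, -45376, 73824,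
  -27040, -38528, 56768, -23104, -17152, 28672, -15360, -896, 7040, -5120, 1792, -256]
def WC1 : List ℤ := [0, 0, 0, 0, 0, 0, 0, 32, 256, 608, -64, -1600, 64, 1440, -4896, 1696, 15008,
  -19456, -18176, 60704, -18464, -89792, 114720, 27232, -189312, 142144, 100640, -256192, 123520,
  141824, -234336, 81856, 110400, -146304, 45568, 48384, -57600, 18432, 8832, -10496, 3840, -512]
def WC2 : List ℤ := [0, 0, 0, 0, 0, 0, 0, 0, -32, -256, -640, -96, 1504, 192, -2752, 1888, 3008,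
  -8000, 4448, 15360, -25280, -5152, 50912, -38848, -41120, 94048, -33600, -89504, 122080, -10048,
  -119872, 114272, 9344, -103680, 81024, 5888, -57216, 42752, -3840, -15488, 12288, -4096, 512]
def WC3 : List ℤ := [0, 0, 0, 0, 0, 0, 0, 0, -64, -384, -320, 1824, 2016, -5568, -2304, 14880,
  -9440, -24864, 48096, 2464, -99744, 92928, 81280, -216544, 81632, 203936, -274848, 18816,
  256640, -231872, -25856, 195456, -129152, -24704, 83840, -42496, -5120, 15104, -6656, 1024]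
def WC4 : List ℤ := [0, 0, 0, 0, 0, 0, 0, 0, 0, 64, 320, -64, -2368, -1280, 7424, 2048, -16128,
  8896, 23168, -41984, -896, 80512, -78592, -62400, 171712, -57792, -164608, 195840, 18560,
  -200896, 132928, 70400, -148864, 45824, 66816, -62976, -2048, 28928, -12032, -4096, 4608, -1024]
def WC5 : List ℤ := [0, 0, 0, 0, 0, 0, 0, 0, 0, 0, 0, 64, 448, 896, -320, -2208, 928, 3680, -4192,
  -3232, 8992, -5600, -10976, 19520, -512, -25632, 18720, 13440, -21952, 1376, 11744, 1728,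
  -12992, -1088, 23040, -19200, -8704, 25216, -14464, -4352, 9984, -5376, 1024]
def WC6 : List ℤ := [0, 0, 0, 0, 0, 0, 0, 0, 0, 32, 128, -160, -960, 704, 3456, -3776, -6816,
  14112, 2784, -30688, 23744, 30976, -68160, 15616, 80992, -87936, -21408, 105792, -57920, -43904,
  69504, -17408, -25472, 22016, -2688, -4864, 2816, -512]
def WC7 : List ℤ := [0, 0, 0, 0, 0, 0, 0, 0, 0, 0, -32, -64, 448, 928, -2208, -3776, 7712, 6176,
  -20512, 2592, 34688, -33888, -24352, 72640, -28320, -72928, 87680, 20512, -97088, 33024, 60800,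
  -48000, -23168, 38528, -512, -20352, 8960, 3584, -4096, 1024]
def WC8 : List ℤ := [0, 0, 0, 0, 0, 0, 0, 0, 0, 0, 0, 0, -64, -288, 64, 1664, 320, -4896, 320,
  9376, -5728, -10368, 15616, 736, -20064, 15616, 12000, -22592, -3328, 20288, 4384, -24768, -320,
  28288, -13568, -15104, 16128, 256, -6528, 2304, 768, -512]
def WC9 : List ℤ := [0, 0, 0, 0, 0, 0, 0, 0, 0, 0, 0, 0, 0, 0, -32, -192, -288, 288, 736, -608,
  -1056, 1376, 896, -1568, 416, 1152, -1088, -672, 1312, 1408, -3200, -1312, 4864, -1280, -3200,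
  1280, 1408, 512, -2560, 896, 1536, -1536, 512]
def WC10 : List ℤ := [0, 0, 0, 0, 0, 0, 0, 0, -32, -224, -416, 384, 1472, -1088, -3488, 3968,
  6112, -9312, -4032, 15968, -5760, -15712, 17504, 3232, -19488, 8480, 9984, -7744, -6560, 5568,
  10400, -14272, -960, 16640, -14464, -768, 11392, -8960, 640, 3328, -2304, 512]
def WC11 : List ℤ := [0, 0, 0, 0, -32, -256, -576, 448, 2848, -288, -7968, 2592, 16960, -15680,
  -23040, 50080, -288, -98688, 84608, 101088, -214688, 24736, 277120, -252608, -130112, 393600,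
  -179968, -262208, 385216, -63808, -288160, 278304, 6656, -209280, 160896, 8832, -102912, 75008,
  -6784, -25984, 20480, -7168, 1024]
def WC12 : List ℤ := [0, 0, 0, 0, 0, 32, 256, 608, -64, -1280, 2080, 4160, -10752, -9376, 30688,
  -2016, -64096, 61408, 68032, -176224, 47104, 241984, -294240, -67200, 449920, -333888, -208640,
  559104, -301856, -265440, 509088, -224864, -201792, 328192, -137600, -85760, 140160, -61824,
  -16256, 32896, -14080, 0, 2048, -512]
def WC13 : List ℤ := [0, 0, 0, 0, 0, 96, 704, 1344, -1632, -6368, 3616, 16192, -17472, -32832,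
  57920, 34624, -129024, 39424, 186912, -222880, -104800, 411264, -197568, -366912, 527008, -8160,
  -523392, 407712, 143968, -432096, 205312, 149248, -226432, 56704, 80128, -65408, -640, 21632,
  -7168, -3072, 2560, -512]
def WC14 : List ℤ := [0, 0, 0, 0, 0, 0, -160, -1216, -2592, 1376, 8000, -5152, -13312, 36032,
  12128, -108160, 57632, 181184, -280864, -76672, 561696, -412352, -467136, 1032992, -350048,
  -953568, 1277984, -156992, -1111040, 1147392, -86080, -814208, 765248, -124864, -332032, 331776,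
  -127232, -19712, 61696, -52224, 28416, -9472, 1536]
def WC15 : List ℤ := [0, 0, 0, 0, 0, 0, 0, 64, 512, 1216, -320, -4352, -1184, 6656, -4352, -7008,
  23744, -9760, -47616, 70240, 30784, -153312, 92288, 151520, -276224, 44832, 314496, -332192,
  -70752, 402976, -261056, -150016, 334976, -142720, -129536, 187776, -54144, -61824, 62720,
  -12800, -12288, 8704, -2048]
def WC16 : List ℤ := [0, 0, 32, 256, 512, -928, -3936, 512, 11648, -704, -21888, 14464, 27136,
  -53440, 3456, 94208, -112096, -50880, 254432, -169376, -232192, 472096, -125024, -501632,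
  612960, 32192, -701632, 571040, 201088, -675584, 361856, 238208, -420992, 148224, 127744,
  -151424, 42496, 24576, -24576, 8192, -1024]
def WC17 : List ℤ := [0, 0, 0, -96, -768, -1632, 2016, 10016, -576, -26528, 5312, 50592, -43776,
  -66848, 130016, 11136, -213408, 168960, 156672, -363072, 118336, 319680, -403968, 22560, 364448,
  -336288, -14592, 300992, -266624, -22912, 250496, -180352, -63104, 169344, -66048, -51456,
  57344, -10240, -10752, 6144, -1024]
def WC18 : List ℤ := [0, 0, 0, 0, 96, 768, 1728, -1248, -8096, 672, 20768, -7936, -40352, 41920,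
  44512, -116704, 21664, 182688, -191296, -104608, 353248, -179232, -255904, 437344, -155072,
  -286944, 463488, -228384, -212960, 488192, -334432, -127712, 439936, -316032, -42112, 244480,
  -183936, 33280, 51840, -55680, 29696, -8704, 1024]
def WC19 : List ℤ := [0, 0, 0, 0, 0, -32, -256, -608, 160, 2016, -608, -5952, 3168, 12352, -11552,
  -11424, 32896, -9664, -50400, 61184, 24320, -112256, 62176, 82816, -148096, 47680, 112352,
  -162080, 51008, 111872, -162272, 58848, 89280, -135680, 50944, 56448, -78592, 24576, 21632,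
  -23168, 5888, 2560, -2048, 512]
def WC20 : List ℤ := [0, 0, 0, -32, -192, -64, 1536, 1600, -6336, -6432, 19648, 10112, -49408,
  9216, 89600, -86784, -84416, 217600, -59328, -276832, 333760, 79552, -496768, 335680, 271616,
  -579296, 207744, 356992, -444544, 59136, 259072, -210176, -2560, 97920, -55296, -1536, 14848,
  -6656, 1024]
def WC21 : List ℤ := [0, 0, 0, 0, 96, 544, 64, -4352, -3360, 18176, 12512, -55584, -12256, 130720,
  -52320, -210016, 244448, 150912, -496064, 198880, 506368, -688128, -25312, 798368, -635520,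
  -267776, 789472, -376448, -330432, 485056, -102784, -201344, 145408, 21248, -53888, -1024,
  22272, -4352, -7680, 5120, -1024]
def WC22 : List ℤ := [0, 0, 0, 0, 0, -96, -480, 288, 4512, 1408, -19712, -6208, 57440, -4768,
  -123488, 82848, 172896, -261984, -73472, 439168, -257088, -352672, 600320, -100864, -541120,
  536480, 54080, -479488, 320800, 87008, -246272, 110336, 36608, -45696, 5632, -2560, 14976,
  -9344, -3072, 5632, -2560, 512]
def WC23 : List ℤ := [0, 0, 0, 0, 0, 0, 32, 96, -512, -2112, 736, 9344, -896, -24672, 11136,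
  47872, -47904, -54880, 112448, -1056, -155136, 121184, 93408, -207168, 59712, 153824, -158688,
  -17344, 123936, -55552, -52672, 56512, 17344, -54464, 19456, 28928, -36992, 14080, 6912, -12544,
  8448, -3328, 512]
def WC24 : List ℤ := [0, 0, 0, 0, 0, 0, -64, -448, -864, 384, 1280, -4704, -4736, 17536, 12832,
  -33312, -2848, 49632, -36288, -38592, 75584, -26400, -56640, 75488, -35264, 1632, 58880,
  -148640, 117120, 110560, -292960, 167744, 152576, -310144, 152064, 105344, -194048, 95104,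
  24192, -56064, 31232, -7680, 512]
def WC25 : List ℤ := [0, 0, 0, 96, 768, 1632, -2112, -10400, 1056, 29440, -7296, -59520, 60352,
  82880, -205952, -6656, 409600, -314112, -441472, 837152, -23616, -1103392, 907968, 574624,
  -1451808, 535424, 988288, -1213056, 49152, 900224, -633216, -195456, 506496, -166912, -186880,
  173568, 11776, -83968, 32256, 14336, -15360, 4096]
def WC26 : List ℤ := [0, 0, 0, 0, -96, -768, -1728, 1152, 7200, -3168, -20192, 19616, 44032,
  -73344, -43104, 184000, -80096, -276736, 402368, 101280, -743584, 530176, 568320, -1223232,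
  414400, 1053920, -1424352, 204352, 1213312, -1271552, 74272, 941952, -845952, 68352, 452480,
  -389120, 79872, 102400, -98176, 35840, -2048, -2560, 512]
def WC27 : List ℤ := [0, 0, 0, -96, -768, -1632, 1984, 9632, -1984, -27072, 11680, 56320, -61280,
  -73216, 176928, -19136, -305504, 325824, 216864, -727968, 338976, 737632, -1123552, 69088,
  1283040, -1219264, -302976, 1498048, -986496, -515904, 1235648, -571264, -431360, 674560,
  -228096, -184064, 216064, -63232, -29440, 30720, -9728, 1024]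
def WC28 : List ℤ := [0, 0, 0, 0, 0, 64, 480, 1376, 1760, -224, -6016, -7840, 11648, 15712,
  -42496, -4320, 122496, -98336, -197536, 392640, 46624, -767648, 588352, 686080, -1457376,
  360192, 1530656, -1782560, -124064, 1950848, -1573152, -379392, 1594624, -1047168, -202368,
  787584, -519808, 43520, 172416, -144384, 59904, -13824, 1536]
def WC29 : List ℤ := [0, 0, 0, 0, 0, 32, 256, 544, -480, -1984, 2144, 2880, -15296, 1600, 54880,
  -36960, -106272, 162080, 69216, -372896, 220960, 421312, -729440, 55040, 932288, -899360,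
  -286592, 1209504, -753696, -472160, 1028544, -455808, -368512, 561536, -199680, -138112, 177024,
  -65920, -13056, 26112, -12288, 2560]
def WC30 : List ℤ := [0, -32, -256, -480, 1216, 4640, -768, -13024, 5184, 22464, -47872, -22912,
  169984, -55744, -343680, 359616, 345472, -888736, 205184, 1140256, -1301056, -346848, 1968000,
  -1329888, -1062464, 2286464, -848128, -1363264, 1723904, -254720, -940672, 746624, 11264,
  -292864, 119296, 18176, 1024, -25088, 3584, 13312, -9216, 2048]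
def WC31 : List ℤ := [0, 0, 96, 768, 1536, -2880, -12288, 992, 34240, -7424, -67616, 72448, 91968,
  -254880, 3904, 510528, -392960, -546112, 1021440, -9888, -1322912, 1011904, 723680, -1590944,
  396416, 1199360, -1040256, -455328, 1059488, -31264, -991072, 548416, 629760, -945920, 186880,
  545664, -529792, 104832, 156288, -147200, 58368, -10752, 512]

/-- the first cofactor -/
def wqP : List E1 := [
/- x2 -/ .mul (.v 1) (.v 1),
/- x3 -/ .mul (.r 0) (.v 1),
/- x4 -/ .mul (.r 0) (.v 1),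
/- y2 -/ .mul (.v 2) (.v 2),
/- y3 -/ .mul (.r 0) (.v 2),
/- y4 -/ .mul (.r 0) (.v 2),
/- z2 -/ .mul (.v 3) (.v 3),
/- z3 -/ .mul (.r 0) (.v 3),
/- z4 -/ .mul (.r 0) (.v 3),
/- WQt0 -/ .mul (.hor WQ0 (.v 0)) (.sub (.add (.sub (.mul (.r 6) (.r 4)) (.mul (.r 3) (.r 1))) (.r
    0)) (.r 7)),
/- WQt1 -/ .mul (.hor WQ1 (.v 0)) (.sub (.add (.sub (.mul (.mul (.r 7) (.r 6)) (.v 3)) (.mul (.r
    4) (.r 3))) (.mul (.v 1) (.r 1))) (.mul (.r 9) (.v 2))),
/- WQt2 -/ .mul (.hor WQ2 (.v 0)) (.sub (.add (.sub (.mul (.r 8) (.r 7)) (.mul (.mul (.v 1) (.r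
    5)) (.r 4))) (.mul (.v 2) (.r 2))) (.mul (.r 10) (.v 3))),
/- WQt3 -/ .mul (.hor WQ3 (.v 0)) (.sub (.add (.sub (.mul (.mul (.r 9) (.v 2)) (.r 5)) (.mul (.r
    6) (.v 3))) (.mul (.r 11) (.r 3))) (.mul (.v 1) (.r 8))),
/- WQt4 -/ .mul (.hor WQ4 (.v 0)) (.sub (.add (.sub (.mul (.mul (.r 10) (.v 2)) (.v 3)) (.mul
    (.mul (.v 1) (.r 7)) (.v 3))) (.mul (.mul (.v 1) (.v 2)) (.r 4))) (.mul (.mul (.v 1) (.v 2))
    (.v 3))),
/- WQt5 -/ .mul (.hor WQ5 (.v 0)) (.sub (.add (.sub (.mul (.r 11) (.v 2)) (.mul (.mul (.r 13) (.r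
    8)) (.v 3))) (.mul (.r 10) (.r 5))) (.mul (.v 1) (.r 7))),
/- WQt6 -/ .mul (.hor WQ6 (.v 0)) (.sub (.add (.sub (.mul (.r 12) (.r 7)) (.r 9)) (.mul (.r 13)
    (.r 6))) (.r 10)),
/- WQt7 -/ .mul (.hor WQ7 (.v 0)) (.sub (.add (.sub (.mul (.r 13) (.r 9)) (.mul (.v 1) (.r 10)))
    (.mul (.mul (.r 15) (.v 2)) (.r 7))) (.mul (.r 12) (.v 3))),
/- WQt8 -/ .mul (.hor WQ8 (.v 0)) (.sub (.add (.sub (.mul (.r 14) (.v 3)) (.mul (.r 16) (.r 11)))
    (.mul (.mul (.v 1) (.r 13)) (.r 8))) (.mul (.v 2) (.r 10))),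
/- WQt9 -/ .mul (.hor WQ9 (.v 0)) (.sub (.add (.sub (.r 15) (.mul (.r 16) (.r 12))) (.mul (.r 13)
    (.r 9))) (.r 10)),
/- WQt10 -/ .mul (.hor WQ10 (.v 0)) (.sub (.add (.sub (.mul (.mul (.r 17) (.r 14)) (.v 3)) (.mul
    (.r 14) (.r 11))) (.mul (.v 1) (.r 11))) (.mul (.r 17) (.v 2))),
/- WQt11 -/ .mul (.hor WQ11 (.v 0)) (.sub (.add (.sub (.mul (.r 18) (.r 15)) (.mul (.mul (.v 1)
    (.r 15)) (.r 12))) (.mul (.v 2) (.r 12))) (.mul (.r 18) (.v 3))),
/- WQt12 -/ .mul (.hor WQ12 (.v 0)) (.sub (.add (.sub (.mul (.mul (.r 19) (.r 17)) (.r 14)) (.mul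
    (.r 16) (.r 14))) (.mul (.r 20) (.r 13))) (.mul (.r 20) (.r 17))),
/- WQt13 -/ .mul (.hor WQ13 (.v 0)) (.sub (.add (.sub (.mul (.mul (.r 20) (.r 18)) (.v 3)) (.mul
    (.mul (.v 1) (.r 17)) (.r 15))) (.mul (.mul (.v 1) (.v 2)) (.r 14))) (.mul (.mul (.r 21) (.v
    2)) (.v 3))),
/- WQt14 -/ .mul (.hor WQ14 (.v 0)) (.sub (.add (.sub (.mul (.r 21) (.r 19)) (.mul (.mul (.r 22)
    (.r 18)) (.r 16))) (.mul (.r 19) (.r 15))) (.mul (.r 22) (.r 16))),
/- WQt15 -/ .mul (.hor WQ15 (.v 0)) (.sub (.add (.sub (.mul (.mul (.r 22) (.v 2)) (.r 16)) (.mul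
    (.r 19) (.v 3))) (.mul (.r 22) (.r 16))) (.mul (.v 1) (.r 19))),
/- WQt16 -/ .mul (.hor WQ16 (.v 0)) (.sub (.add (.sub (.mul (.mul (.r 23) (.v 2)) (.r 18)) (.mul
    (.mul (.v 1) (.r 20)) (.v 3))) (.mul (.mul (.r 24) (.v 2)) (.r 17))) (.mul (.mul (.v 1) (.r
    21)) (.v 3))),
/- WQt17 -/ .mul (.hor WQ17 (.v 0)) (.sub (.add (.sub (.mul (.mul (.r 24) (.v 2)) (.v 3)) (.mul
    (.mul (.r 25) (.r 21)) (.v 3))) (.mul (.mul (.v 1) (.r 22)) (.r 18))) (.mul (.mul (.v 1) (.v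
    2)) (.r 19))),
/- WQt18 -/ .mul (.hor WQ18 (.v 0)) (.sub (.add (.sub (.mul (.r 25) (.r 20)) (.mul (.r 26) (.r
    22))) (.mul (.mul (.r 26) (.r 23)) (.r 19))) (.mul (.r 23) (.r 20))),
/- WQt19 -/ .mul (.hor WQ19 (.v 0)) (.sub (.add (.sub (.mul (.mul (.r 27) (.r 24)) (.r 21)) (.mul
    (.mul (.v 1) (.r 24)) (.r 21))) (.mul (.mul (.r 27) (.v 2)) (.r 21))) (.mul (.mul (.r 27) (.r
    24)) (.v 3))),
/- WQ -/ .add (.add (.add (.add (.add (.add (.add (.add (.add (.add (.add (.add (.add (.add (.add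
    (.add (.add (.add (.add (.r 19) (.r 18)) (.r 17)) (.r 16)) (.r 15)) (.r 14)) (.r 13)) (.r 12))
    (.r 11)) (.r 10)) (.r 9)) (.r 8)) (.r 7)) (.r 6)) (.r 5)) (.r 4)) (.r 3)) (.r 2)) (.r 1)) (.r
    0)]

/-- the second cofactor -/
def wcP : List E1 := [
/- x2 -/ .mul (.v 1) (.v 1),
/- x3 -/ .mul (.r 0) (.v 1),
/- x4 -/ .mul (.r 0) (.v 1),
/- x5 -/ .mul (.r 0) (.v 1),
/- y2 -/ .mul (.v 2) (.v 2),
/- y3 -/ .mul (.r 0) (.v 2),
/- y4 -/ .mul (.r 0) (.v 2),
/- y5 -/ .mul (.r 0) (.v 2),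
/- z2 -/ .mul (.v 3) (.v 3),
/- z3 -/ .mul (.r 0) (.v 3),
/- z4 -/ .mul (.r 0) (.v 3),
/- z5 -/ .mul (.r 0) (.v 3),
/- WCt0 -/ .mul (.hor WC0 (.v 0)) (.sub (.add (.sub (.mul (.r 8) (.r 6)) (.mul (.r 4) (.r 2))) (.r
    0)) (.r 10)),
/- WCt1 -/ .mul (.hor WC1 (.v 0)) (.sub (.add (.sub (.mul (.mul (.r 9) (.r 8)) (.v 3)) (.mul (.r
    5) (.r 4))) (.mul (.v 1) (.r 1))) (.mul (.r 12) (.v 2))),
/- WCt2 -/ .mul (.hor WC2 (.v 0)) (.sub (.add (.sub (.mul (.r 10) (.r 9)) (.mul (.mul (.v 1) (.r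
    6)) (.r 5))) (.mul (.v 2) (.r 2))) (.mul (.r 13) (.v 3))),
/- WCt3 -/ .mul (.hor WC3 (.v 0)) (.sub (.add (.sub (.mul (.mul (.r 11) (.v 2)) (.r 6)) (.mul (.r
    7) (.v 3))) (.mul (.r 14) (.r 3))) (.mul (.v 1) (.r 10))),
/- WCt4 -/ .mul (.hor WC4 (.v 0)) (.sub (.add (.sub (.mul (.mul (.r 12) (.v 2)) (.v 3)) (.mul
    (.mul (.v 1) (.r 8)) (.v 3))) (.mul (.mul (.v 1) (.v 2)) (.r 4))) (.mul (.mul (.v 1) (.v 2))
    (.v 3))),
/- WCt5 -/ .mul (.hor WC5 (.v 0)) (.sub (.add (.sub (.mul (.r 13) (.v 2)) (.mul (.mul (.r 16) (.r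
    9)) (.v 3))) (.mul (.r 12) (.r 5))) (.mul (.v 1) (.r 8))),
/- WCt6 -/ .mul (.hor WC6 (.v 0)) (.sub (.add (.sub (.mul (.r 14) (.r 8)) (.r 10)) (.mul (.r 16)
    (.r 6))) (.r 12)),
/- WCt7 -/ .mul (.hor WC7 (.v 0)) (.sub (.add (.sub (.mul (.r 15) (.r 10)) (.mul (.v 1) (.r 11)))
    (.mul (.mul (.r 18) (.v 2)) (.r 7))) (.mul (.r 14) (.v 3))),
/- WCt8 -/ .mul (.hor WC8 (.v 0)) (.sub (.add (.sub (.mul (.r 16) (.v 3)) (.mul (.r 19) (.r 12)))
    (.mul (.mul (.v 1) (.r 15)) (.r 8))) (.mul (.v 2) (.r 11))),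
/- WCt9 -/ .mul (.hor WC9 (.v 0)) (.sub (.add (.sub (.r 17) (.mul (.r 19) (.r 13))) (.mul (.r 15)
    (.r 9))) (.r 11)),
/- WCt10 -/ .mul (.hor WC10 (.v 0)) (.sub (.add (.sub (.mul (.r 19) (.r 15)) (.mul (.r 15) (.r
    11))) (.r 11)) (.r 19)),
/- WCt11 -/ .mul (.hor WC11 (.v 0)) (.sub (.add (.sub (.mul (.mul (.r 20) (.r 17)) (.v 3)) (.mul
    (.r 16) (.r 13))) (.mul (.v 1) (.r 12))) (.mul (.r 21) (.v 2))),
/- WCt12 -/ .mul (.hor WC12 (.v 0)) (.sub (.add (.sub (.mul (.r 21) (.r 18)) (.mul (.mul (.v 1)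
    (.r 17)) (.r 14))) (.mul (.v 2) (.r 13))) (.mul (.r 22) (.v 3))),
/- WCt13 -/ .mul (.hor WC13 (.v 0)) (.sub (.add (.sub (.mul (.mul (.r 22) (.r 20)) (.r 16)) (.mul
    (.r 18) (.r 16))) (.mul (.r 24) (.r 14))) (.mul (.r 24) (.r 20))),
/- WCt14 -/ .mul (.hor WC14 (.v 0)) (.sub (.add (.sub (.mul (.mul (.r 23) (.r 21)) (.v 3)) (.mul
    (.mul (.v 1) (.r 19)) (.r 17))) (.mul (.mul (.v 1) (.v 2)) (.r 15))) (.mul (.mul (.r 25) (.v
    2)) (.v 3))),
/- WCt15 -/ .mul (.hor WC15 (.v 0)) (.sub (.add (.sub (.mul (.r 24) (.r 22)) (.mul (.mul (.r 26)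
    (.r 20)) (.r 18))) (.mul (.r 22) (.r 16))) (.mul (.r 26) (.r 18))),
/- WCt16 -/ .mul (.hor WC16 (.v 0)) (.sub (.add (.sub (.mul (.mul (.r 25) (.v 2)) (.r 18)) (.mul
    (.r 21) (.v 3))) (.mul (.r 26) (.r 17))) (.mul (.v 1) (.r 22))),
/- WCt17 -/ .mul (.hor WC17 (.v 0)) (.sub (.add (.sub (.mul (.mul (.r 26) (.v 2)) (.r 20)) (.mul
    (.mul (.v 1) (.r 22)) (.v 3))) (.mul (.mul (.r 28) (.v 2)) (.r 18))) (.mul (.mul (.v 1) (.r
    24)) (.v 3))),
/- WCt18 -/ .mul (.hor WC18 (.v 0)) (.sub (.add (.sub (.mul (.mul (.r 27) (.v 2)) (.v 3)) (.mul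
    (.mul (.r 29) (.r 23)) (.v 3))) (.mul (.mul (.v 1) (.r 25)) (.r 19))) (.mul (.mul (.v 1) (.v
    2)) (.r 21))),
/- WCt19 -/ .mul (.hor WC19 (.v 0)) (.sub (.add (.sub (.mul (.r 28) (.v 2)) (.mul (.mul (.r 29)
    (.r 24)) (.v 3))) (.mul (.r 25) (.r 20))) (.mul (.v 1) (.r 21))),
/- WCt20 -/ .mul (.hor WC20 (.v 0)) (.sub (.mul (.r 29) (.r 21)) (.r 25)),
/- WCt21 -/ .mul (.hor WC21 (.v 0)) (.sub (.add (.sub (.mul (.r 30) (.r 23)) (.mul (.v 1) (.r
    26))) (.mul (.mul (.r 31) (.v 2)) (.r 22))) (.mul (.r 27) (.v 3))),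
/- WCt22 -/ .mul (.hor WC22 (.v 0)) (.sub (.add (.sub (.mul (.r 31) (.r 25)) (.mul (.r 33) (.r
    27))) (.mul (.mul (.r 33) (.r 29)) (.r 23))) (.mul (.r 29) (.r 25))),
/- WCt23 -/ .mul (.hor WC23 (.v 0)) (.sub (.add (.sub (.mul (.r 32) (.v 3)) (.mul (.r 33) (.r
    28))) (.mul (.mul (.v 1) (.r 29)) (.r 24))) (.mul (.v 2) (.r 25))),
/- WCt24 -/ .mul (.hor WC24 (.v 0)) (.sub (.add (.sub (.mul (.mul (.r 34) (.r 30)) (.r 27)) (.mul
    (.r 30) (.r 26))) (.mul (.r 35) (.r 26))) (.mul (.r 34) (.r 31))),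
/- WCt25 -/ .mul (.hor WC25 (.v 0)) (.sub (.add (.sub (.mul (.mul (.r 35) (.r 31)) (.v 3)) (.mul
    (.mul (.v 1) (.r 31)) (.r 27))) (.mul (.mul (.v 1) (.v 2)) (.r 27))) (.mul (.mul (.r 35) (.v
    2)) (.v 3))),
/- WCt26 -/ .mul (.hor WC26 (.v 0)) (.sub (.add (.sub (.mul (.r 36) (.r 32)) (.mul (.mul (.r 37)
    (.r 32)) (.r 28))) (.mul (.r 33) (.r 28))) (.mul (.r 36) (.r 29))),
/- WCt27 -/ .mul (.hor WC27 (.v 0)) (.sub (.add (.sub (.mul (.mul (.r 37) (.r 34)) (.r 29)) (.mul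
    (.r 33) (.r 30))) (.mul (.r 37) (.r 29))) (.mul (.r 38) (.r 33))),
/- WCt28 -/ .mul (.hor WC28 (.v 0)) (.sub (.add (.sub (.mul (.mul (.r 38) (.r 35)) (.r 31)) (.mul
    (.mul (.v 1) (.r 34)) (.r 31))) (.mul (.mul (.r 39) (.v 2)) (.r 30))) (.mul (.mul (.r 39) (.r
    35)) (.v 3))),
/- WCt29 -/ .mul (.hor WC29 (.v 0)) (.sub (.add (.sub (.mul (.mul (.r 39) (.r 36)) (.v 3)) (.mul
    (.mul (.r 40) (.r 35)) (.r 32))) (.mul (.mul (.v 1) (.r 36)) (.r 31))) (.mul (.mul (.r 40) (.v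
    2)) (.r 32))),
/- WCt30 -/ .mul (.hor WC30 (.v 0)) (.sub (.mul (.mul (.r 40) (.v 2)) (.r 32)) (.mul (.mul (.v 1)
    (.r 36)) (.v 3))),
/- WCt31 -/ .mul (.hor WC31 (.v 0)) (.sub (.add (.sub (.mul (.mul (.r 41) (.v 2)) (.r 34)) (.mul
    (.mul (.r 42) (.r 37)) (.v 3))) (.mul (.mul (.r 42) (.r 38)) (.r 33))) (.mul (.mul (.v 1) (.r
    38)) (.r 34))),
/- WC -/ .add (.add (.add (.add (.add (.add (.add (.add (.add (.add (.add (.add (.add (.add (.add
    (.add (.add (.add (.add (.add (.add (.add (.add (.add (.add (.add (.add (.add (.add (.add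
    (.add (.r 31) (.r 30)) (.r 29)) (.r 28)) (.r 27)) (.r 26)) (.r 25)) (.r 24)) (.r 23)) (.r 22))
    (.r 21)) (.r 20)) (.r 19)) (.r 18)) (.r 17)) (.r 16)) (.r 15)) (.r 14)) (.r 13)) (.r 12)) (.r
    11)) (.r 10)) (.r 9)) (.r 8)) (.r 7)) (.r 6)) (.r 5)) (.r 4)) (.r 3)) (.r 2)) (.r 1)) (.r 0)]

theorem chkQ : check1 (base ++ (acP ++ (qP ++ (wqP ++
    [.sub (.r 30) (.mul (.r 0) (.r 44))])))) [47, 2561, 20481, 158721] = true := by decide +kernel

theorem chkC : check1 (base ++ (acP ++ (cP ++ (wcP ++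
    [.sub (.r 45) (.mul (.r 0) (.r 59))])))) [49, 2817, 25344, 219640] = true := by decide +kernel

end Vale.Agent.P297.H572
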