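import Vale.Agent.P297.H572.IdL

/-! A program for the nonvanishing. -/

namespace Vale.Agent.P297.H572

/-- powers of the forms -/
def acnP : List E1 := [
/- OO0 -/ .pow (.r 19) 2,
/- OO1 -/ .mul (.r 20) (.r 19),
/- OO2 -/ .pow (.r 20) 2,
/- M2 -/ .pow (.r 36) 2,
/- N2 -/ .pow (.r 36) 2,
/- RR0 -/ .pow (.r 26) 2,
/- RR1 -/ .mul (.r 27) (.r 26),
/- RR2 -/ .pow (.r 27) 2,
/- qh -/ .add (.mul (.r 40) (.add (.mul (.hor lq00 (.v 0)) (.r 7)) (.mul (.hor lq20 (.v 0)) (.r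
    5)))) (.mul (.r 41) (.add (.add (.mul (.hor lq01 (.v 0)) (.r 7)) (.mul (.hor lq11 (.v 0)) (.r
    6))) (.mul (.hor lq21 (.v 0)) (.r 5)))),
/- rh -/ .add (.mul (.r 41) (.add (.add (.mul (.hor lr00 (.v 0)) (.r 8)) (.mul (.hor lr10 (.v 0))
    (.r 7))) (.mul (.hor lr20 (.v 0)) (.r 6)))) (.mul (.r 42) (.add (.mul (.hor lr01 (.v 0)) (.r
    8)) (.mul (.hor lr21 (.v 0)) (.r 6)))),
/- sh -/ .add (.mul (.r 42) (.add (.mul (.hor ls00 (.v 0)) (.r 9)) (.mul (.hor ls20 (.v 0)) (.r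
    7)))) (.mul (.r 43) (.add (.add (.mul (.hor ls01 (.v 0)) (.r 9)) (.mul (.hor ls11 (.v 0)) (.r
    8))) (.mul (.hor ls21 (.v 0)) (.r 7))))]

/-- the product of the elements that must not vanish -/
def nzP : List E1 := [
/- Ah -/ .add (.add (.add (.mul (.mul (.r 6) (.r 43)) (.add (.mul (.hor a00 (.v 0)) (.r 3)) (.mul
    (.hor a02 (.v 0)) (.r 5)))) (.mul (.mul (.r 7) (.r 43)) (.add (.mul (.hor a20 (.v 0)) (.r 3))
    (.mul (.hor a22 (.v 0)) (.r 5))))) (.mul (.mul (.r 44) (.r 6)) (.mul (.hor a11 (.v 0)) (.r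
    4)))) (.mul (.mul (.r 7) (.r 44)) (.mul (.hor a31 (.v 0)) (.r 4))),
/- Bh -/ .sub (.add (.mul (.r 7) (.r 3)) (.mul (.mul (.r 45) (.r 44)) (.r 2))) (.mul (.r 8) (.r
    1)),
/- Ch -/ .add (.add (.mul (.mul (.r 46) (.r 45)) (.add (.mul (.hor c10 (.v 0)) (.mul (.r 5) (.r
    33))) (.mul (.hor c12 (.v 0)) (.mul (.r 7) (.r 33))))) (.mul (.r 8) (.add (.mul (.hor c01 (.v
    0)) (.mul (.r 6) (.r 33))) (.mul (.hor c03 (.v 0)) (.mul (.r 7) (.r 34)))))) (.mul (.r 9)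
    (.mul (.hor c21 (.v 0)) (.mul (.r 6) (.r 33)))),
/- bb0 -/ .sub (.add (.mul (.r 9) (.add (.mul (.r 46) (.hor lq00 (.v 0))) (.mul (.r 47) (.hor lq01
    (.v 0))))) (.mul (.mul (.r 47) (.r 46)) (.add (.mul (.r 46) (.hor lr00 (.v 0))) (.mul (.r 47)
    (.hor lr01 (.v 0)))))) (.mul (.r 10) (.add (.mul (.r 46) (.hor ls00 (.v 0))) (.mul (.r 47)
    (.hor ls01 (.v 0))))),
/- ee0 -/ .sub (.mul (.mul (.r 36) (.r 47)) (.add (.mul (.r 47) (.hor lq00 (.v 0))) (.mul (.r 48)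
    (.hor lq01 (.v 0))))) (.mul (.mul (.r 35) (.r 48)) (.add (.mul (.r 47) (.hor ls00 (.v 0)))
    (.mul (.r 48) (.hor ls01 (.v 0))))),
/- ff0 -/ .sub (.mul (.r 2) (.r 1)) (.mul (.r 4) (.r 0)),
/- dW -/ .sub (.add (.sub (.mul (.r 33) (.sub (.mul (.r 28) (.r 18)) (.mul (.r 27) (.r 19))))
    (.mul (.r 32) (.sub (.mul (.r 29) (.r 18)) (.mul (.r 27) (.r 20))))) (.mul (.r 31) (.sub (.mul
    (.r 29) (.r 19)) (.mul (.r 28) (.r 20))))) (.add (.sub (.mul (.r 33) (.sub (.mul (.r 27) (.r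
    17)) (.mul (.r 26) (.r 18)))) (.mul (.r 31) (.sub (.mul (.r 29) (.r 17)) (.mul (.r 26) (.r
    20))))) (.mul (.r 30) (.sub (.mul (.r 29) (.r 18)) (.mul (.r 27) (.r 20))))),
/- nz -/ .mul (.mul (.mul (.mul (.mul (.r 50) (.r 38)) (.r 36)) (.r 5)) (.r 1)) (.r 0)]

end Vale.Agent.P297.H572
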