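import Vale.Agent.P297.H600.QTwin
import Vale.Agent.P297.Bdl.B1

/-!
The twin principle for a subgroup of cycles of embeddings that contains the stable relations, and
the removal of a power of three.
-/

set_option linter.unusedSectionVars false
set_option linter.style.haveILetI false

open CategoryTheory AlgebraicGeometry IntermediateField Polynomial

namespace Vale.Agent.P297.H72

open Vale.Agent.P297 Vale.Agent.P297.H839 Vale.Agent.P297.H109 Vale.Agent.P297.H729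
  Vale.Agent.P297.H600

/-- **[QG]** the twin principle for a group `G` of cycles of embeddings that contains the stable
relations and the twin relations -/
theorem quartic_good {K Ω : Type} [Field K] [Algebra ℂ K] [Field Ω] [Algebra ℂ Ω]
    {F : IntermediateField ℂ Ω} {m : K →ₐ[ℂ] Ω} {θ : Ω} [IsAlgClosed Ω]
    (hF : Algebra.IsAlgebraic F Ω) (p n ζ : Ω)
    (hp : p ∈ F) (hn : n ∈ F) (hθ : θ ^ 4 - 2 * p * θ ^ 2 + n = 0)
    (hζ : (2 * ζ ^ 2 - p) ^ 2 = n) (hsq : ∀ a ∈ F, a ^ 2 ≠ n)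
    (hθζ : θ ∉ F ⊔ IntermediateField.adjoin ℂ {ζ})
    (hm : m.fieldRange = F ⊔ IntermediateField.adjoin ℂ {θ})
    (G : AddSubgroup ((K →ₐ[ℂ] Ω) →₀ ℤ)) (hG : stableRelations K Ω ≤ G)
    (hact : ∀ (g : Ω ≃ₐ[ℂ] Ω), ∀ z ∈ G, H600.act g.toAlgHom z ∈ G)
    (h1 : ∀ g : Ω ≃ₐ[ℂ] Ω, (∀ x ∈ F ⊔ IntermediateField.adjoin ℂ {ζ}, g x = x) →
      g θ ≠ θ → Finsupp.single m (1 : ℤ) + Finsupp.single (g.toAlgHom.comp m) 1 ∈ G)
    (h2 : IsRational (F ⊔ IntermediateField.adjoin ℂ {θ ^ 2})) :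
    Finsupp.single m (2 : ℤ) ∈ G := by
  haveI : CharZero Ω := charZero_of_injective_algebraMap (algebraMap ℂ Ω).injective
  have hn0 : n ≠ 0 := fun h => hsq 0 F.zero_mem (by rw [h]; ring)
  have hθ0 : θ ≠ 0 := by
    rintro rfl
    apply hn0
    linear_combination hθ
  set g₀ : Ω := 2 * ζ ^ 2 - p with hg₀
  have hgF : g₀ ∉ F := fun h => hsq g₀ h hζ
  have hg0 : g₀ ≠ 0 := by
    intro h
    apply hn0
    rw [← hζ, h]
    ring
  have hgθ : (g₀ / θ) ^ 2 = 2 * p - θ ^ 2 := by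
    rw [div_pow, hζ, div_eq_iff (pow_ne_zero 2 hθ0)]
    linear_combination hθ
  have hgθ' : θ * (g₀ / θ) = g₀ := mul_div_cancel₀ _ hθ0
  have two : ∀ φ : K →ₐ[ℂ] Ω, Finsupp.single φ (2 : ℤ) = (2 : ℤ) • Finsupp.single φ (1 : ℤ) := by
    intro φ
    rw [Finsupp.smul_single, smul_eq_mul, mul_one]
  -- the rational quotient
  have hE1 : F ≤ F ⊔ IntermediateField.adjoin ℂ {θ ^ 2} := le_sup_left
  rcases pair_fixed hm (F ⊔ IntermediateField.adjoin ℂ {θ ^ 2}) (isAlgebraic_mono hE1 hF) hE1 (-θ)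
    (by rw [add_neg_cancel]; exact zero_mem _)
    (by
      have h3 : θ * -θ = -(θ ^ 2) := by ring
      rw [h3]
      exact neg_mem (mem_sup_adjoin F _)) with k1 | ⟨j₁, hj₁, hjθ₁, k1⟩
  · rw [two]
    exact AddSubgroup.zsmul_mem _ (hG (stable_of_fixed _ h2 (isAlgebraic_mono hE1 hF) _ k1)) _
  have R1 := hG (stable_of_fixed _ h2 (isAlgebraic_mono hE1 hF) _ k1)
  -- the twin
  have hE2 : F ≤ F ⊔ IntermediateField.adjoin ℂ {ζ} := le_sup_left
  have hζm : ζ ∈ F ⊔ IntermediateField.adjoin ℂ {ζ} := mem_sup_adjoin F ζ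
  have hgm : g₀ ∈ F ⊔ IntermediateField.adjoin ℂ {ζ} := by
    rw [hg₀]
    exact sub_mem (mul_mem (ofNat_mem _ 2) (pow_mem hζm 2)) (hE2 hp)
  have hzζ : θ + g₀ / θ = 2 * ζ ∨ θ + g₀ / θ = -(2 * ζ) := by
    apply sq_eq_sq_iff_eq_or_eq_neg.1
    have h3 : (θ + g₀ / θ) ^ 2 = θ ^ 2 + (g₀ / θ) ^ 2 + 2 * (θ * (g₀ / θ)) := by ring
    rw [h3, hgθ, hgθ', hg₀]
    ring
  have hsum : θ + g₀ / θ ∈ F ⊔ IntermediateField.adjoin ℂ {ζ} := by
    rcases hzζ with h | h
    · rw [h]; exact mul_mem (ofNat_mem _ 2) hζm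
    · rw [h]; exact neg_mem (mul_mem (ofNat_mem _ 2) hζm)
  obtain ⟨j₂, hj₂, hjθ₂⟩ := exists_conj (F ⊔ IntermediateField.adjoin ℂ {ζ})
    (isAlgebraic_mono hE2 hF) θ (g₀ / θ) hsum (by rw [hgθ']; exact hgm) hθζ
  have hne : j₂ θ ≠ θ := by
    rw [hjθ₂]
    intro h
    apply hθζ
    have h3 : θ = (θ + g₀ / θ) / 2 := by rw [h]; ring
    rw [h3]
    exact div_mem hsum (ofNat_mem _ 2)
  have R2 := h1 j₂ hj₂ hne
  -- the conjugate twin
  obtain ⟨γ, hγ, hγg⟩ := exists_conj F hF g₀ (-g₀) (by rw [add_neg_cancel]; exact zero_mem _)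
    (by
      have h3 : g₀ * -g₀ = -n := by rw [← hζ]; ring
      rw [h3]
      exact neg_mem hn) hgF
  have R3 := hact j₂ _ R1
  have R4 := hact γ _ R2
  rw [map_add, act_single, act_single] at R3 R4
  have e1 := IsEmb.self (F := F) (m := m) (θ := θ)
  have e2 := e1.act (hj₁.mono hE1)
  rw [hjθ₁] at e2
  have e3 := e1.act (Fixes.mono hE2 hj₂)
  rw [hjθ₂] at e3
  have e4 := e2.act (Fixes.mono hE2 hj₂)
  rw [map_neg, hjθ₂] at e4
  have f1 := e1.act hγ
  have f2 := e3.act hγ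
  rw [map_div₀, hγg] at f2
  have hroot : (γ θ ^ 2 - θ ^ 2) * (γ θ ^ 2 - (g₀ / θ) ^ 2) = 0 := by
    have h3 := congrArg γ hθ
    simp only [map_add, map_sub, map_mul, map_pow, map_ofNat, map_zero, hγ p hp, hγ n hn] at h3
    rw [hgθ]
    linear_combination h3 - hθ
  have final : ∀ a b c d : (K →ₐ[ℂ] Ω) →₀ ℤ, a + b ∈ G → a + c ∈ G → c + d ∈ G →
      (a + d ∈ G ∨ b + c ∈ G) → (2 : ℤ) • a ∈ G := by
    intro a b c d hab hac hcd h
    rcases h with h | h
    · have h3 : (2 : ℤ) • a = (a + c) + (a + d) - (c + d) := by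
        rw [two_smul]
        abel
      rw [h3]
      exact sub_mem (add_mem hac h) hcd
    · have h3 : (2 : ℤ) • a = (a + c) - (b + c) + (a + b) := by
        rw [two_smul]
        abel
      rw [h3]
      exact add_mem (sub_mem hac h) hab
  rw [two]
  refine final _ _ _ _ R1 R2 R3 ?_
  rcases mul_eq_zero.1 hroot with h | h
  · rcases sq_eq_sq_iff_eq_or_eq_neg.1 (sub_eq_zero.1 h) with h5 | h5
    · rw [h5] at f1 f2
      have h6 : -g₀ / θ = -(g₀ / θ) := neg_div _ _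
      rw [h6] at f2
      rw [f1.uniq hm e1, f2.uniq hm e4] at R4
      exact Or.inl R4
    · rw [h5] at f1 f2
      have h6 : -g₀ / -θ = g₀ / θ := neg_div_neg_eq _ _
      rw [h6] at f2
      rw [f1.uniq hm e2, f2.uniq hm e3] at R4
      exact Or.inr R4
  · rcases sq_eq_sq_iff_eq_or_eq_neg.1 (sub_eq_zero.1 h) with h5 | h5
    · rw [h5] at f1 f2
      have h6 : -g₀ / (g₀ / θ) = -θ := by
        field_simp
      rw [h6] at f2
      rw [f1.uniq hm e3, f2.uniq hm e2, add_comm] at R4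
      exact Or.inr R4
    · rw [h5] at f1 f2
      have h6 : -g₀ / -(g₀ / θ) = θ := by
        field_simp
      rw [h6] at f2
      rw [f1.uniq hm e4, f2.uniq hm e1, add_comm] at R4
      exact Or.inl R4

/-- **[QF]** removal of a power of three -/
theorem one_of_pow_three {S : Scheme.{0}} [IsIntegral S] (f : S ⟶ Spec (.of ℂ)) [IsProper f]
    (k : ℕ) (h0 : ∀ x y : closedPoints S, ((3 : ℤ) ^ k) •
      (Finsupp.single x (1 : ℤ) - Finsupp.single y 1) ∈ Rat f)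
    (h : ∀ R : AddSubgroup (ZeroCycle S), Rat f ≤ R → (∀ x y : closedPoints S, (3 : ℤ) •
        (Finsupp.single x (1 : ℤ) - Finsupp.single y 1) ∈ R) →
      ∀ x y : closedPoints S, (2 : ℤ) • (Finsupp.single x (1 : ℤ) - Finsupp.single y 1) ∈ R) :
    ∀ x y : closedPoints S, Finsupp.single x (1 : ℤ) - Finsupp.single y 1 ∈ Rat f := by
  induction k with
  | zero =>
    intro x y
    have h1 := h0 x y
    rwa [pow_zero, one_smul] at h1
  | succ k ih =>
    apply ih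
    intro x y
    let R : AddSubgroup (ZeroCycle S) :=
      (Rat f).comap (DistribSMul.toAddMonoidHom (ZeroCycle S) ((3 : ℤ) ^ k))
    have hR : ∀ z, z ∈ R ↔ ((3 : ℤ) ^ k) • z ∈ Rat f := fun z => Iff.rfl
    have h1 : Rat f ≤ R := fun z hz => (hR z).2 (AddSubgroup.zsmul_mem _ hz _)
    have h2 := (hR _).1 (h R h1 (fun x y => (hR _).2 (by
      rw [smul_smul, ← pow_succ]
      exact h0 x y)) x y)
    have h3 := h0 x y
    have h4 : ((3 : ℤ) ^ k) • (Finsupp.single x (1 : ℤ) - Finsupp.single y 1 : ZeroCycle S) =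
        ((3 : ℤ) ^ (k + 1)) • (Finsupp.single x (1 : ℤ) - Finsupp.single y 1) -
          ((3 : ℤ) ^ k) • ((2 : ℤ) • (Finsupp.single x (1 : ℤ) - Finsupp.single y 1)) := by
      rw [smul_smul, ← sub_smul]
      congr 1
      ring
    rw [h4]
    exact sub_mem h3 h2

end Vale.Agent.P297.H72
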