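import Vale.Agent.P297.H572.Ev

/-! Tables of integer coefficients, and the basic program. -/

namespace Vale.Agent.P297.H572

def lM1 : List ℤ := [0, -1, 0, 1, -1]
def lM2 : List ℤ := [1, 0, -1]
def lN1 : List ℤ := [0, -1, -1, 1, 0, -1]
def lN2 : List ℤ := [-1, -1, 3, 1, -2]
def la1 : List ℤ := [0, -1, -2, -1, -1, -1, 1]
def la2 : List ℤ := [0, 0, 1, 0, -1]
def la3 : List ℤ := [0, 0, 0, 0, 1, 1, 1]
def lA : List ℤ := [1, 0, -1, 2]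
def lcm : List ℤ := [-1, -3, 0, 4, -1, 1, 4, -6, -2, 4, -4]
def lsm : List ℤ := [-1, 1]
def lcp : List ℤ := [1, 1, -1, -1, 0, -2]
def lB : List ℤ := [1, 2, 0, 0, 2]
def ln1 : List ℤ := [0, 1, 3, 1, -2, 0, -3, -6, -2]
def ln2 : List ℤ := [1, 4, 4, 0, 2, 2, -3, 2, 4]
def lP : List ℤ := [0, -1, -4, -7, -10, -11, -5, 1, 8, 10, 6, 6, 1, -2, 3]
def lQ : List ℤ := [0, 0, 1, 1, -5, -7, -3, -9, -5, 5, -1, 0, 5, -2, -1]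
def lR : List ℤ := [0, -1, -2, 2, 4, -2, 1, 2, -6, -1, 3, -4, 0, 4]
def lS : List ℤ := [1, 4, 7, 8, 8, 10, 8, -2, 5, 2, -11, 2, 2, -8, 2]
def lq00 : List ℤ := [-1, -3, -1, -1, -8, 2, 6, -10, 8, 8, -8, 8]
def lq20 : List ℤ := [-1, -3, -1, -1, -8, 2, 6, -10, 8, 8, -8, 8]
def lq01 : List ℤ := [1, 2, -4, -8, 1, -6, -6, 20, 0, 0, 16, -16]
def lq11 : List ℤ := [0, -4, -12, 0, 16, -4, 16, 32, -28, 0, 0, -32, 16]
def lq21 : List ℤ := [-1, -2, 4, 8, -1, 6, 6, -20, 0, 0, -16, 16]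
def lr00 : List ℤ := [0, 2, 10, 16, 12, 22, 30, 0, 4, 24, -8, 0, 16]
def lr10 : List ℤ := [0, 0, 0, 0, -8, -32, -32, -8, -48, -40, 40, -32, -32, 32, -32]
def lr20 : List ℤ := [0, -2, -10, -16, -12, -22, -30, 0, -4, -24, 8, 0, -16]
def lr01 : List ℤ := [0, 2, 8, 10, 12, 26, 8, -14, 28, 4, -24, 36, -16, -16, 32, -16]
def lr21 : List ℤ := [0, 2, 8, 10, 12, 26, 8, -14, 28, 4, -24, 36, -16, -16, 32, -16]
def ls00 : List ℤ := [-1, -3, 4, 20, 17, 19, 50, 26, 6, 50, 8, -4, 40, -8, 0, 16]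
def ls20 : List ℤ := [-1, -3, 4, 20, 17, 19, 50, 26, 6, 50, 8, -4, 40, -8, 0, 16]
def ls01 : List ℤ := [1, 6, 11, 4, 3, 26, 21, 0, 8, -36, -44, 24, -8, 0, 16, -32]
def ls11 : List ℤ := [0, -4, -20, -28, -4, -20, -80, -60, -76, -104, 44, 24, -56, 32, -48, -32,
  32]
def ls21 : List ℤ := [-1, -6, -11, -4, -3, -26, -21, 0, -8, 36, 44, -24, 8, 0, -16, 32]
def a00 : List ℤ := [-1, -5, -5, 3, -7, -7, 29, -11, -16, 52, -48, 0, 48, -64, 48, -16]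
def a02 : List ℤ := [-1, 1, 2, -6, 7, 1, -12, 16, -12, 4]
def a20 : List ℤ := [1, 7, 12, -4, -10, 10, -44, -36, 113, 7, -24, 144, -144, -48, 192, -112, 48,
  80, -128, 64]
def a22 : List ℤ := [1, 1, -7, -7, 7, -1, 11, 19, -32, 8, 4, -20, 32, -16]
def a11 : List ℤ := [-2, -6, -6, -6, -2, 6, -2, 14, 4, -16, 24, -24, 16]
def a31 : List ℤ := [2, 10, 12, -8, -12, 4, -16, 8, 34, -38, 4, 16, -40, 40, -16]
def lB2 : List ℤ := [1, 4, 4, 0, 4, 8, 0, 0, 4]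
def lw2 : List ℤ := [-2, 4, -2, 0, 2, -4, 2]
def c10 : List ℤ := [1, 5, 4, -14, -18, 6, -12, -8, 65, -3, -32, 78, -56, -32, 112, -64, 16, 48,
  -64, 32]
def c12 : List ℤ := [-1, -3, -1, 3, 1, 1, 5, 1, -8, 2, 4, -12, 16, -8]
def c01 : List ℤ := [-1, -5, -5, 3, -7, -7, 29, -11, -16, 52, -48, 0, 48, -64, 48, -16]
def c03 : List ℤ := [-1, 1, 2, -6, 7, 1, -12, 16, -12, 4]
def c21 : List ℤ := [2, 10, 12, -8, -12, 4, -16, 8, 34, -38, 4, 16, -40, 40, -16]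

/-- the forms at the point `(x, y, z, 1)` -/
def base : List E1 := [
/- X -/ .add (.v 1) (.v 3),
/- Y -/ .add (.v 2) (.k 1),
/- U -/ .sub (.v 1) (.v 3),
/- V -/ .sub (.v 2) (.k 1),
/- p1 -/ .add (.mul (.v 1) (.v 3)) (.v 2),
/- p2 -/ .sub (.mul (.v 1) (.v 3)) (.v 2),
/- M -/ .add (.mul (.hor lM1 (.v 0)) (.mul (.r 5) (.r 4))) (.mul (.hor lM2 (.v 0)) (.r 1)),
/- N -/ .add (.mul (.hor lN1 (.v 0)) (.mul (.r 4) (.r 3))) (.mul (.hor lN2 (.v 0)) (.r 1)),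
/- a1 -/ .hor la1 (.v 0),
/- a2 -/ .hor la2 (.v 0),
/- a3 -/ .hor la3 (.v 0),
/- L0 -/ .add (.add (.mul (.r 2) (.v 2)) (.mul (.r 1) (.v 3))) (.r 0),
/- L1 -/ .add (.add (.mul (.r 3) (.v 3)) (.r 2)) (.mul (.r 1) (.v 1)),
/- L2 -/ .add (.add (.r 4) (.mul (.r 3) (.v 1))) (.mul (.r 2) (.v 2)),
/- L3 -/ .add (.add (.mul (.r 5) (.v 1)) (.mul (.r 4) (.v 2))) (.mul (.r 3) (.v 3)),
/- C0 -/ .mul (.pow (.v 1) 2) (.r 3),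
/- C1 -/ .mul (.pow (.v 2) 2) (.r 3),
/- C2 -/ .mul (.pow (.v 3) 2) (.r 3),
/- R1 -/ .add (.mul (.hor lA (.v 0)) (.sub (.add (.sub (.r 2) (.r 1)) (.r 0)) (.r 3))) (.mul (.hor
    lcm (.v 0)) (.sub (.add (.sub (.mul (.mul (.v 1) (.v 2)) (.v 3)) (.mul (.v 2) (.v 3))) (.mul
    (.v 1) (.v 3))) (.mul (.v 1) (.v 2)))),
/- R2 -/ .mul (.hor lsm (.v 0)) (.add (.add (.add (.add (.r 3) (.r 2)) (.r 1)) (.r 4)) (.mul (.hor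
    lcp (.v 0)) (.add (.add (.add (.mul (.mul (.v 1) (.v 2)) (.v 3)) (.mul (.v 2) (.v 3))) (.mul
    (.v 1) (.v 3))) (.mul (.v 1) (.v 2))))),
/- O1 -/ .add (.add (.mul (.hor lB (.v 0)) (.sub (.r 4) (.r 2))) (.mul (.hor ln1 (.v 0)) (.mul
    (.mul (.v 1) (.v 3)) (.r 16)))) (.mul (.hor ln2 (.v 0)) (.mul (.v 2) (.r 17))),
/- O2 -/ .add (.sub (.mul (.hor lB (.v 0)) (.sub (.r 4) (.r 6))) (.mul (.hor ln1 (.v 0)) (.mul (.v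
    2) (.r 18)))) (.mul (.hor ln2 (.v 0)) (.mul (.mul (.v 1) (.v 3)) (.r 17))),
/- F -/ .add (.add (.add (.add (.mul (.pow (.v 0) 2) (.add (.add (.add (.mul (.mul (.v 1) (.r 6))
    (.r 10)) (.mul (.mul (.v 2) (.r 5)) (.r 9))) (.mul (.mul (.v 3) (.r 4)) (.r 8))) (.pow (.r 7)
    2))) (.mul (.hor lP (.v 0)) (.add (.add (.add (.mul (.mul (.pow (.v 1) 2) (.pow (.v 2) 2)) (.v
    3)) (.mul (.pow (.v 2) 2) (.pow (.v 3) 2))) (.mul (.pow (.v 3) 2) (.v 1))) (.mul (.pow (.v 1)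
    2) (.v 2))))) (.mul (.hor lQ (.v 0)) (.add (.add (.add (.mul (.pow (.v 1) 2) (.pow (.v 2) 2))
    (.mul (.mul (.pow (.v 2) 2) (.pow (.v 3) 2)) (.v 1))) (.mul (.pow (.v 3) 2) (.v 2))) (.mul
    (.pow (.v 1) 2) (.v 3))))) (.mul (.hor lR (.v 0)) (.add (.add (.add (.mul (.mul (.pow (.v 1)
    2) (.pow (.v 3) 2)) (.v 2)) (.mul (.pow (.v 2) 2) (.v 3))) (.mul (.pow (.v 3) 2) (.pow (.v 1)
    2))) (.mul (.pow (.v 2) 2) (.v 1))))) (.mul (.hor lS (.v 0)) (.add (.add (.add (.mul (.mul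
    (.pow (.v 1) 2) (.v 2)) (.v 3)) (.mul (.mul (.pow (.v 2) 2) (.v 3)) (.v 1))) (.mul (.mul (.pow
    (.v 3) 2) (.v 1)) (.v 2))) (.mul (.mul (.v 1) (.v 2)) (.v 3))))]

/-- powers of the forms -/
def acP : List E1 := [
/- OO0 -/ .pow (.r 2) 2,
/- OO1 -/ .mul (.r 3) (.r 2),
/- OO2 -/ .pow (.r 3) 2,
/- M2 -/ .pow (.r 19) 2,
/- N2 -/ .pow (.r 19) 2,
/- RR0 -/ .pow (.r 9) 2,
/- RR1 -/ .mul (.r 10) (.r 9),
/- RR2 -/ .pow (.r 10) 2,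
/- qh -/ .add (.mul (.r 23) (.add (.mul (.hor lq00 (.v 0)) (.r 7)) (.mul (.hor lq20 (.v 0)) (.r
    5)))) (.mul (.r 24) (.add (.add (.mul (.hor lq01 (.v 0)) (.r 7)) (.mul (.hor lq11 (.v 0)) (.r
    6))) (.mul (.hor lq21 (.v 0)) (.r 5)))),
/- rh -/ .add (.mul (.r 24) (.add (.add (.mul (.hor lr00 (.v 0)) (.r 8)) (.mul (.hor lr10 (.v 0))
    (.r 7))) (.mul (.hor lr20 (.v 0)) (.r 6)))) (.mul (.r 25) (.add (.mul (.hor lr01 (.v 0)) (.r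
    8)) (.mul (.hor lr21 (.v 0)) (.r 6)))),
/- sh -/ .add (.mul (.r 25) (.add (.mul (.hor ls00 (.v 0)) (.r 9)) (.mul (.hor ls20 (.v 0)) (.r
    7)))) (.mul (.r 26) (.add (.add (.mul (.hor ls01 (.v 0)) (.r 9)) (.mul (.hor ls11 (.v 0)) (.r
    8))) (.mul (.hor ls21 (.v 0)) (.r 7))))]

/-- the left side of the first relation -/
def qP : List E1 := [
/- Ah -/ .add (.add (.add (.mul (.mul (.r 6) (.r 26)) (.add (.mul (.hor a00 (.v 0)) (.r 3)) (.mul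
    (.hor a02 (.v 0)) (.r 5)))) (.mul (.mul (.r 7) (.r 26)) (.add (.mul (.hor a20 (.v 0)) (.r 3))
    (.mul (.hor a22 (.v 0)) (.r 5))))) (.mul (.mul (.r 27) (.r 6)) (.mul (.hor a11 (.v 0)) (.r
    4)))) (.mul (.mul (.r 7) (.r 27)) (.mul (.hor a31 (.v 0)) (.r 4))),
/- Bh -/ .sub (.add (.mul (.r 7) (.r 3)) (.mul (.mul (.r 28) (.r 27)) (.r 2))) (.mul (.r 8) (.r
    1)),
/- QE -/ .add (.mul (.hor lB2 (.v 0)) (.r 1)) (.mul (.hor lw2 (.v 0)) (.r 0))]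

/-- the left side of the second relation -/
def cP : List E1 := [
/- Ch -/ .add (.add (.mul (.mul (.r 27) (.r 26)) (.add (.mul (.hor c10 (.v 0)) (.mul (.r 3) (.r
    14))) (.mul (.hor c12 (.v 0)) (.mul (.r 5) (.r 14))))) (.mul (.r 6) (.add (.mul (.hor c01 (.v
    0)) (.mul (.r 4) (.r 14))) (.mul (.hor c03 (.v 0)) (.mul (.r 5) (.r 15)))))) (.mul (.r 7)
    (.mul (.hor c21 (.v 0)) (.mul (.r 4) (.r 14)))),
/- Eh -/ .sub (.mul (.mul (.r 16) (.r 27)) (.r 3)) (.mul (.mul (.r 15) (.r 28)) (.r 1)),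
/- CE -/ .add (.mul (.hor lB2 (.v 0)) (.r 1)) (.mul (.hor lw2 (.v 0)) (.r 0))]

end Vale.Agent.P297.H572
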